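import Vale.Agent.P014T.Uy.Pt
import Vale.Agent.P014T.Dr.St

/-! # P014T: pull-backs and the Galois action on modular functions (helper27) -/

set_option autoImplicit false
set_option linter.all false

open CongruenceSubgroup Matrix
open scoped MatrixGroups

noncomputable section

namespace Vale.Agent.P014T.Uy

open Vale.Agent.P022 H231.L3 P027M.M Dc P022K.QT.Cu Dr

variable {N : ℕ} {k k' : ℤ} {g : GQ} {A A' B B' : P027M.M.M2} {x : FF} {γ γ' : SL(2, ℤ)}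
  {Γ : Subgroup SL(2, ℤ)}

/-! ### the cyclotomic character -/

theorem cyc_iff : Cyc N g k ↔ g (E (1 / N)) = E (k / N) := by
  have := io_E_ze N 1
  rw [Int.cast_one] at this
  exact ⟨fun h => P027M.M.io_inj ((h _ this).trans (io_E_ze N k).symm), fun h a e => by
    rw [P027M.M.io_inj (e.trans this.symm), h, io_E_ze]⟩

theorem ex_cyc (hN : 0 < N) (g : GQ) : ∃ k, Cyc N g k := ((serg N hN g).1).imp fun _ h => h.2

theorem Cyc.cop (hN : 0 < N) (h : Cyc N g k) : IsCoprime k (N : ℤ) := ((serg N hN g).2 k h).1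

theorem cyc_dvd {M : ℕ} (hM : 0 < M) (d : N ∣ M) (h : Cyc M g k) : Cyc N g k := by
  obtain ⟨c, rfl⟩ := d
  have : (N : ℚ) ≠ 0 := Nat.cast_ne_zero.2 (Nat.pos_of_mul_pos_right hM).ne'
  rw [cyc_iff, Sg.gal_E h hM ⟨c, by push_cast; field_simp⟩, mul_one_div]

theorem cyc_congr (hN : 0 < N) (h : Cyc N g k) : Cyc N g k' ↔ (N : ℤ) ∣ k' - k := by
  have : (N : ℚ) ≠ 0 := Nat.cast_ne_zero.2 hN.ne'
  rw [cyc_iff] at h ⊢
  rw [h, show (k' / N : ℚ) = k / N + (k' - k) / N by ring, E_add, eq_comm, mul_eq_left₀ (E_ne _),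
    E_eq_one]
  refine exists_congr fun c => ?_
  rw [div_eq_iff this, mul_comm]
  norm_cast

theorem cyc_hm (hN : 0 < N) : Cyc N g 1 ↔ g ∈ Hm N := by
  have : NeZero N := ⟨hN.ne'⟩
  have n : (N : ℚ) ≠ 0 := Nat.cast_ne_zero.2 hN.ne'
  have p : IsPrimitiveRoot (E (1 / N)) N := .mk_of_lt _ hN
    (by rw [← E_nat, mul_one_div_cancel n, ← Int.cast_one, E_int]) fun l a b e => by
      rw [← E_nat, E_eq_one] at e
      obtain ⟨c, e⟩ := e
      rw [mul_one_div, div_eq_iff n] at e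
      exact (Nat.le_of_dvd a (Int.natCast_dvd_natCast.1 ⟨c, by rw [mul_comm]; exact_mod_cast e⟩)).not_gt b
  rw [cyc_iff, Int.cast_one]
  refine ⟨fun h z e => ?_, fun h => h _ p.pow_eq_one⟩
  obtain ⟨i, -, rfl⟩ := p.eq_pow_of_pow_eq_one e
  rw [map_pow, h]

theorem cyc_ha (hN : 0 < N) (h : g ∈ Ha) : Cyc N g 1 :=
  (cyc_hm hN).2 (Nat.sub_add_cancel hN ▸ Subgroup.mem_iInf.1 h (N - 1))

/-! ### twisted matrices -/

/-- `A' ≡ diag(1, k)⁻¹ A diag(1, k)` modulo `n` -/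
def Tm (n k : ℤ) (A A' : P027M.M.M2) : Prop :=
  n ∣ A' 0 0 - A 0 0 ∧ n ∣ A' 0 1 - k * A 0 1 ∧ n ∣ k * A' 1 0 - A 1 0 ∧ n ∣ A' 1 1 - A 1 1

theorem tw_iff : Tw N k γ γ' ↔ Tm N k γ γ' := Iff.rfl

variable {n m : ℤ}

theorem tm_one (n : ℤ) (A : P027M.M.M2) : Tm n 1 A A := by simp [Tm]

theorem Tm.dvd (h : Tm n k A A') (d : m ∣ n) : Tm m k A A' :=
  ⟨d.trans h.1, d.trans h.2.1, d.trans h.2.2.1, d.trans h.2.2.2⟩

theorem Tm.mul (h : Tm n k A A') (l : Tm n k B B') : Tm n k (A * B) (A' * B') := by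
  obtain ⟨⟨a, ha⟩, ⟨b, hb⟩, ⟨c, hc⟩, d, hd⟩ := h
  obtain ⟨⟨p, hp⟩, ⟨q, hq⟩, ⟨r, hr⟩, s, hs⟩ := l
  simp only [Tm, mul_apply, Fin.sum_univ_two]
  exact ⟨⟨a * B' 0 0 + A 0 0 * p + b * B' 1 0 + A 0 1 * r, by
      linear_combination B' 0 0 * ha + A 0 0 * hp + B' 1 0 * hb + A 0 1 * hr⟩,
    ⟨a * B' 0 1 + A 0 0 * q + b * B' 1 1 + k * A 0 1 * s, by
      linear_combination B' 0 1 * ha + A 0 0 * hq + B' 1 1 * hb + k * A 0 1 * hs⟩,
    ⟨c * B' 0 0 + A 1 0 * p + k * d * B' 1 0 + A 1 1 * r, by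
      linear_combination B' 0 0 * hc + A 1 0 * hp + k * B' 1 0 * hd + A 1 1 * hr⟩,
    A' 1 0 * q + c * B 0 1 + d * B' 1 1 + A 1 1 * s, by
      linear_combination A' 1 0 * hq + B 0 1 * hc + B' 1 1 * hd + A 1 1 * hs⟩

theorem Tm.symm (h : Tm n k A A') (e : n ∣ k * k' - 1) : Tm n k' A' A := by
  obtain ⟨⟨a, ha⟩, ⟨b, hb⟩, ⟨c, hc⟩, d, hd⟩ := h
  obtain ⟨e, he⟩ := e
  exact ⟨⟨-a, by linear_combination -ha⟩, ⟨-k' * b - e * A 0 1, by
    linear_combination -k' * hb - A 0 1 * he⟩, ⟨-k' * c + e * A' 1 0, by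
    linear_combination -k' * hc + A' 1 0 * he⟩, -d, by linear_combination -hd⟩

theorem Tm.congr (h : Tm n k A A') (e : n ∣ k' - k) : Tm n k' A A' := by
  obtain ⟨a, b, c, d⟩ := h
  exact ⟨a, (b.sub (e.mul_right (A 0 1))).trans (dvd_of_eq (by ring)),
    (c.add (e.mul_right (A' 1 0))).trans (dvd_of_eq (by ring)), d⟩

theorem Tm.uniq (h : Tm n k A A') (l : Tm n k A B') (c : IsCoprime k n) (i j : Fin 2) :
    n ∣ A' i j - B' i j := by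
  revert i j
  simp only [Fin.forall_fin_two]
  exact ⟨⟨by simpa using h.1.sub l.1, by simpa using h.2.1.sub l.2.1⟩,
    c.symm.dvd_of_dvd_mul_left (by simpa [mul_sub] using h.2.2.1.sub l.2.2.1),
    by simpa using h.2.2.2.sub l.2.2.2⟩

theorem ex_tm (c : IsCoprime k n) (γ : SL(2, ℤ)) : ∃ γ' : SL(2, ℤ), Tm n k γ γ' := by
  obtain ⟨u, v, e⟩ := c
  induction (SpecialLinearGroup.SL2Z_generators.ge (Subgroup.mem_top γ)) using
    Subgroup.closure_induction with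
  | mem γ m =>
    rcases m with rfl | rfl
    · exact ⟨⟨!![v * n, -k * (1 + v * n); u, v * n], by
        rw [det_fin_two_of]; linear_combination (1 + v * n) * e⟩, by simp [ModularGroup.S],
        ⟨-k * v, by simp [ModularGroup.S]; ring⟩,
        ⟨-v, by simp [ModularGroup.S]; linear_combination e⟩, by simp [ModularGroup.S]⟩
    · exact ⟨ModularGroup.T ^ k, by simp [Tm, ModularGroup.coe_T_zpow, ModularGroup.coe_T]⟩
  | one => exact ⟨1, by simp [Tm]⟩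
  | mul _ _ _ _ p q => exact p.elim fun a p => q.elim fun b q => ⟨a * b, p.mul q⟩
  | inv γ _ p =>
    obtain ⟨a, p1, p2, p3, p4⟩ := p
    refine ⟨a⁻¹, show Tm n k (adjugate γ.1) (adjugate a.1) from ?_⟩
    rw [adjugate_fin_two, adjugate_fin_two]
    exact ⟨p4, p2.neg_right.trans (dvd_of_eq (by simp; ring)),
      p3.neg_right.trans (dvd_of_eq (by simp; ring)), p1⟩

theorem ex_tm' (c : IsCoprime k n) (γ' : SL(2, ℤ)) : ∃ γ : SL(2, ℤ), Tm n k γ γ' := by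
  obtain ⟨u, v, e⟩ := c
  exact (ex_tm (k := u) ⟨k, v, mul_comm u k ▸ e⟩ γ').imp fun _ h =>
    h.symm ⟨-v, by linear_combination e⟩

theorem ex_gam (hA : 0 < A.det) (d : B.det = A.det) (h : ∀ i j, N * A.det ∣ B i j - A i j) :
    ∃ δ ∈ Gamma N, B = δ * A := by
  choose C hC using h
  have e : B = (1 + (N : ℤ) • (of C * A.adjugate)) * A := by
    rw [add_mul, one_mul, smul_mul, Matrix.mul_assoc, adjugate_mul, Matrix.mul_smul, mul_one, smul_smul]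
    ext i j
    exact eq_add_of_sub_eq' (hC i j)
  refine ⟨⟨_, mul_right_cancel₀ hA.ne' (by rw [← det_mul, ← e, d, one_mul])⟩, ?_, e⟩
  have z : ∀ i j, (((1 + (N : ℤ) • (of C * A.adjugate)) i j : ℤ) : ZMod N) =
      ((1 : P027M.M.M2) i j : ℤ) := fun i j => by
    rw [Matrix.add_apply, Matrix.smul_apply, smul_eq_mul, Int.cast_add, Int.cast_mul,
      Int.cast_natCast, ZMod.natCast_self, zero_mul, add_zero]
  exact Gamma_mem.2 ⟨(z 0 0).trans (by simp), (z 0 1).trans (by simp), (z 1 0).trans (by simp),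
    (z 1 1).trans (by simp)⟩

theorem tm_gamma (h : Tm N k γ γ') (c : IsCoprime k (N : ℤ)) (m : γ ∈ Gamma N) : γ' ∈ Gamma N := by
  simp only [Tm, ← ZMod.intCast_zmod_eq_zero_iff_dvd, Int.cast_sub, Int.cast_mul, sub_eq_zero,
    Gamma_mem] at h m ⊢
  refine ⟨h.1.trans m.1, by rw [h.2.1, m.2.1, mul_zero], ?_, h.2.2.2.trans m.2.2.2⟩
  rw [ZMod.intCast_zmod_eq_zero_iff_dvd]
  refine c.symm.dvd_of_dvd_mul_left ?_
  rw [← ZMod.intCast_zmod_eq_zero_iff_dvd, Int.cast_mul, h.2.2.1, m.2.2.1]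

/-! ### pull-backs -/

variable (X : Mdl) (hA : 0 < A.det) (hA' : 0 < A'.det) (hB : 0 < B.det)

theorem pb_scal {c : ℤ} (hc : c ≠ 0) (e : B = c • A) (x : FF) : X.pb B hB x = X.pb A hA x := by
  have p : 0 < (c • (1 : P027M.M.M2)).det := by
    rw [det_smul, det_one, mul_one, Fintype.card_fin]
    positivity
  rw [← Hec.pb_mul X (A := c • 1) (B := A) (by rw [e, smul_mul, one_mul]) p hA hB]
  exact congrArg _ (cv_inj (by rw [X.pb_coe, Pb.scal p hc rfl]))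

theorem pb_left {δ : SL(2, ℤ)} (m : δ ∈ Γ) (e : B = δ * A) (hx : x ∈ L Γ) :
    X.pb B hB x = X.pb A hA x := by
  rw [← Hec.pb_mul X e.symm (SL_pos δ) hA hB]
  exact congrArg _ ((Hec.mem_L_iff X).1 hx δ m)

theorem pb_cong (d : B.det = A.det) (h : ∀ i j, N * A.det ∣ B i j - A i j) (hx : x ∈ L (Gamma N)) :
    X.pb B hB x = X.pb A hA x :=
  let ⟨_, m, e⟩ := ex_gam hA d h
  pb_left X hA hB m e hx

theorem pb_lev {Γ' : Subgroup SL(2, ℤ)} (h : ∀ δ ∈ Γ', ∃ δ' ∈ Γ, A * δ = δ' * A) (hx : x ∈ L Γ) :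
    X.pb A hA x ∈ L Γ' := (Hec.mem_L_iff X).2 fun δ m =>
  let ⟨_, l, e⟩ := h δ m
  (Hec.pb_mul X rfl hA _ (Hec.det_mul_pos hA (SL_pos δ)) x).trans (pb_left X hA _ l e hx)

theorem pb_gamma (hx : x ∈ L (Gamma N)) : X.pb A hA x ∈ L (Gamma (N * A.det.natAbs)) :=
  pb_lev X hA (Pbm.conj A hA N) hx

theorem pg_gamma (hx : x ∈ L (Gamma N)) (γ : SL(2, ℤ)) : X.pg γ x ∈ L (Gamma N) := by
  simpa [Mdl.pg] using pb_gamma X (SL_pos γ) hx

/-! ### the reciprocity law -/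

theorem gal_tri {a d : ℕ} (b : ℤ) (ha : 0 < a) (hd : 0 < d) (hN : 0 < N) (h : Cyc (N * d) g k)
    (hx : Lf N x) : X.gal g (X.pb _ (tri_pos b ha hd) x) =
      X.pb _ (tri_pos (k * b) ha hd) (X.gal g x) := by
  obtain ⟨s, e⟩ := hx
  have p := Nat.mul_pos hN hd
  have : (g : Qb →+* Qb) (E (b / (N * d : ℕ))) = E ((k * b : ℤ) / (N * d : ℕ)) := by
    refine (Sg.gal_E h p ⟨b, mul_div_cancel₀ _ (Nat.cast_ne_zero.2 p.ne')⟩).trans ?_
    rw [Int.cast_mul, mul_div_assoc]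
  refine ((e.pb X hN b ha hd _).gal X p g).inj p ?_
  simp only [mp_ex, mp_rs, this]
  exact (e.gal X hN g).pb X hN _ ha hd _

theorem shim4 (hN : 0 < N) (g : GQ) : ∃ k, Cyc (4 * N) g k ∧ ∀ γ γ' : SL(2, ℤ), Tm (4 * N : ℕ) k γ γ' →
    ∀ x ∈ L (Gamma N), X.gal g (X.pg γ x) = X.pg γ' (X.gal g x) :=
  have p : 0 < 4 * N := by omega
  (ex_cyc p g).imp fun k h => ⟨h, fun γ γ' t x m =>
    (x_shim X _ ⟨p, dvd_mul_right _ _⟩ g k h).2 γ γ' t x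
      ((L_Gt X _).ge (L_mono (mul_comm N 4 ▸ gamma_le) m))⟩

theorem gal_gamma (hN : 0 < N) (g : GQ) (hx : x ∈ L (Gamma N)) : X.gal g x ∈ L (Gamma N) := by
  obtain ⟨k, h, s⟩ := shim4 X hN g
  have c := Cyc.cop (by omega) h
  refine (Hec.mem_L_iff X).2 fun δ m => ?_
  obtain ⟨γ, t⟩ := ex_tm' c δ
  obtain ⟨u, v, e⟩ := c
  have d : (N : ℤ) ∣ (4 * N : ℕ) := by simp
  rw [← s γ δ t x hx, (Hec.mem_L_iff X).1 hx γ (tm_gamma ((t.symm (k' := u)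
    ⟨-v, by linear_combination e⟩).dvd d) (.of_isCoprime_of_dvd_right ⟨k, v, mul_comm u k ▸ e⟩ d) m)]

/-- **Shimura's law, every level** -/
theorem gal_pg (hN : 0 < N) (h : Cyc N g k) (t : Tm N k γ γ') (hx : x ∈ L (Gamma N)) :
    X.gal g (X.pg γ x) = X.pg γ' (X.gal g x) := by
  obtain ⟨l, hl, s⟩ := shim4 X hN g
  obtain ⟨δ, r⟩ := ex_tm (Cyc.cop (by omega) hl) γ
  rw [s γ δ r x hx]
  refine pb_cong X _ _ (by simp) (fun i j => ?_) (gal_gamma X hN g hx)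
  rw [γ'.det_coe, mul_one]
  exact ((r.dvd (by simp)).congr ((cyc_congr hN
    (cyc_dvd (by omega) (dvd_mul_left N 4) hl)).1 h)).uniq t (Cyc.cop hN h) i j

/-- **Shimura's law, every matrix** -/
theorem gal_pb (hN : 0 < N) (h : Cyc (N * A.det.natAbs) g k) (d : A'.det = A.det)
    (t : Tm (N * A.det) k A A') (hx : x ∈ L (Gamma N)) :
    X.gal g (X.pb A hA x) = X.pb A' hA' (X.gal g x) := by
  have p := Nat.mul_pos hN (Int.natAbs_pos.2 hA.ne')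
  have c := Cyc.cop p h
  rw [Nat.cast_mul, Int.natAbs_of_nonneg hA.le] at c
  obtain ⟨γ, a, e, b, ha, he, k1⟩ := Pbm.hermite A hA
  have k2 : A.det = a * e := by simp [k1, det_fin_two_of]
  obtain ⟨γ', r⟩ := ex_tm c γ
  have q := Hec.det_mul_pos (SL_pos γ') (tri_pos (k * b) ha he)
  rw [← Hec.pb_mul X k1.symm (SL_pos γ) (tri_pos b ha he) hA, ← Mdl.pg, gal_tri X b ha he hN
    (cyc_dvd p (mul_dvd_mul_left N (Int.natCast_dvd_natCast.1 (by simp [k2]))) h)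
    (lf_gamma hN le_rfl (pg_gamma X hx γ)), gal_pg X hN (cyc_dvd p (dvd_mul_right _ _) h)
    (r.dvd (dvd_mul_right _ _)) hx, Mdl.pg, Hec.pb_mul X rfl _ _ q]
  refine pb_cong X hA' q (by simp [d, k2, det_fin_two_of]) (fun i j => d ▸ ?_) (gal_gamma X hN g hx)
  exact (k1 ▸ r.mul (by simp [Tm]) : Tm _ k A _).uniq t c i j

theorem gal_pb_hm (hN : 0 < N) (h : g ∈ Hm (N * A.det.natAbs)) (hx : x ∈ L (Gamma N)) :
    X.gal g (X.pb A hA x) = X.pb A hA (X.gal g x) :=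
  gal_pb X hA hA hN ((cyc_hm (Nat.mul_pos hN (Int.natAbs_pos.2 hA.ne'))).2 h) rfl (tm_one _ _) hx

theorem gal_pg_hm (hN : 0 < N) (h : g ∈ Hm N) (hx : x ∈ L (Gamma N)) (γ : SL(2, ℤ)) :
    X.gal g (X.pg γ x) = X.pg γ (X.gal g x) := gal_pg X hN ((cyc_hm hN).2 h) (tm_one _ _) hx

/-- `Ha` commutes with all pull-backs -/
theorem gal_pb_ha (h : g ∈ Ha) (x : FF) : X.gal g (X.pb A hA x) = X.pb A hA (X.gal g x) :=
  let ⟨_, hN, m⟩ := ex_gamma x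
  gal_pb X hA hA hN (cyc_ha (Nat.mul_pos hN (Int.natAbs_pos.2 hA.ne')) h) rfl (tm_one _ _) m

theorem gal_pg_ha (h : g ∈ Ha) (γ : SL(2, ℤ)) (x : FF) :
    X.gal g (X.pg γ x) = X.pg γ (X.gal g x) := gal_pb_ha X _ h x

theorem gal_L_ha (h : g ∈ Ha) (hx : x ∈ L Γ) : X.gal g x ∈ L Γ :=
  (Hec.mem_L_iff X).2 fun γ m => by rw [← gal_pg_ha X h, (Hec.mem_L_iff X).1 hx γ m]

/-- conjugate levels -/
theorem gal_L {Γ' : Subgroup SL(2, ℤ)} (hN : 0 < N) (h : Cyc N g k) (l : Gamma N ≤ Γ)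
    (s : ∀ γ : SL(2, ℤ), ∀ γ' ∈ Γ', Tm N k γ γ' → γ ∈ Γ) (hx : x ∈ L Γ) : X.gal g x ∈ L Γ' :=
  (Hec.mem_L_iff X).2 fun γ' m => by
    obtain ⟨γ, t⟩ := ex_tm' (Cyc.cop hN h) γ'
    rw [← gal_pg X hN h t (L_mono l hx), (Hec.mem_L_iff X).1 hx γ (s γ γ' m t)]

theorem gal_L_hm (hN : 0 < N) (h : g ∈ Hm N) (l : Gamma N ≤ Γ) (hx : x ∈ L Γ) : X.gal g x ∈ L Γ :=
  (Hec.mem_L_iff X).2 fun γ m => by
    rw [← gal_pg_hm X hN h (L_mono l hx), (Hec.mem_L_iff X).1 hx γ m]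

end Vale.Agent.P014T.Uy
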