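import Vale.Agent.P014T.Dc.Fb
import Vale.Agent.P014T.Pu.An
import Vale.Agent.P014T.Sg.Ff
import Vale.Agent.P022K.F0.Cf.Der

/-! # P014T: the places of the modular function fields over the open curve (helper27) -/

set_option autoImplicit false
set_option linter.all false

open UpperHalfPlane CongruenceSubgroup
open scoped MatrixGroups IntermediateField

noncomputable section

namespace Vale.Agent.P014T.Uy

open Vale.Agent.P022 H218.L3 H231.L3 H236.L3 P027M.M P019P P025H492 Dc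
open P022K.F0.Cf hiding MF
open P004Z.Ar.Fn hiding act_inv cff od_j

theorem j_onto (c : ℂ) : ∃ τ, jf τ = c := by
  by_contra! n
  have m : jM - algebraMap ℂ Mer c ∈ MF ⊤ := sub_mem jM_mem (IntermediateField.algebraMap_mem _ c)
  obtain ⟨d, e⟩ := liou (inv_mem m) (fun τ => by
    have := (ev_eq_zero (sub_ne_zero.2 (jM_ne_const c))
      ((pl τ).sub_mem (reg_j τ) (reg_const τ _))).not.1 (by
        rw [ev_sub (reg_j τ) (reg_const τ _), ev_const, ev_j]
        exact sub_ne_zero.2 (n τ))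
    rw [reg_iff, od_inv]
    omega) fun g => by
    rw [act_eq_self (inv_mem m) trivial]
    exact (LR_or m).resolve_left fun k => j_not 1 (by simpa using add_mem k (const_LR c))
  exact jM_ne_const (c + d⁻¹) (by rw [map_add, map_inv₀, ← e, inv_inv]; ring)

theorem od_pb {g : GL (Fin 2) ℝ} (hg : 0 < g.det.val) (τ : ℍ) (x : Mer) :
    od τ (pb g hg x) = od (g • τ) x :=
  have o := isOrd_pl τ
  congrFun (IsOrd.unique (O := pl (g • τ)) (f := fun x => od τ (pb g hg x))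
    ⟨by rw [map_zero, od_zero], fun x y a b => by
      rw [map_mul, o.mul _ _ ((map_ne_zero _).2 a) ((map_ne_zero _).2 b)], fun x y a b c => by
      rw [map_add]
      exact o.add _ _ ((map_ne_zero _).2 a) ((map_ne_zero _).2 b) (map_add (pb g hg) x y ▸
        (map_ne_zero _).2 c), fun x => by rw [mem_pl, ← Pu.reg_pb hg, reg_iff, map_eq_zero],
      (pb g hg).symm (jm (tz τ)), by rw [AlgEquiv.apply_symm_apply, od_tz]⟩ (isOrd_pl _)) x

/-- holomorphic on the half plane -/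
def Hl (x : FF) : Prop := ∀ τ, Reg τ (cv x)

/-- without zeros and poles on the half plane -/
def Ut (x : FF) : Prop := x ≠ 0 ∧ ∀ τ, od τ (cv x) = 0

/-- a local parameter at each point of the half plane -/
def Lp (x : FF) : Prop := Hl x ∧ ∀ τ c, 0 < od τ (cv x - algebraMap ℂ Mer c) →
  od τ (cv x - algebraMap ℂ Mer c) = 1

variable {x y : FF}

theorem hl_inc {f : ℍ → ℂ} {hf : f ∈ Hol} (e : cv x = inc f hf) : Hl x := fun τ => e ▸ reg_jm τ _

theorem ut_inc {f : ℍ → ℂ} {hf : f ∈ Hol} (e : cv x = inc f hf) (n : ∀ τ, f τ ≠ 0) : Ut x :=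
  ⟨fun k => inc_ne_zero hf (fun l => n I (congrFun l _)) (by rw [← e, k, map_zero]),
    fun τ => e ▸ od_unit (u := ⟨f, hf⟩) (n τ)⟩

theorem Ut.hl (h : Ut x) : Hl x := fun τ => reg_iff.2 (.inr (h.2 τ).ge)

theorem Ut.inv (h : Ut x) : Ut x⁻¹ :=
  ⟨inv_ne_zero h.1, fun τ => by rw [map_inv₀, od_inv, h.2, neg_zero]⟩

theorem Ut.mul (h : Ut x) (k : Ut y) : Ut (x * y) := ⟨mul_ne_zero h.1 k.1, fun τ => by
  rw [map_mul, od_mul τ ((map_ne_zero _).2 h.1) ((map_ne_zero _).2 k.1), h.2, k.2, add_zero]⟩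

theorem ut_of (n : x ≠ 0) (h : Hl x) (k : Hl x⁻¹) : Ut x := ⟨n, fun τ => by
  have a := h τ
  have b := k τ
  have := (map_ne_zero cv).2 n
  rw [map_inv₀, reg_iff, od_inv, inv_eq_zero, or_iff_right this] at b
  rw [reg_iff, or_iff_right this] at a
  omega⟩

theorem ut_const {a : Qb} (n : a ≠ 0) : Ut (algebraMap Qb FF a) :=
  ⟨(map_ne_zero _).2 n, fun τ => by rw [cv_alg, od_const]⟩

theorem ut_one : Ut 1 := by simpa using ut_const one_ne_zero

theorem Ut.zpow (h : Ut x) (n : ℤ) : Ut (x ^ n) :=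
  ⟨zpow_ne_zero n h.1, fun τ => by rw [map_zpow₀, od_zpow, h.2, mul_zero]⟩

theorem Ut.pow (h : Ut x) (n : ℕ) : Ut (x ^ n) := zpow_natCast x n ▸ h.zpow n

theorem ut_prod {ι : Type*} {s : Finset ι} {u : ι → FF} (h : ∀ i ∈ s, Ut (u i)) :
    Ut (∏ i ∈ s, u i) := Finset.prod_induction _ _ (fun _ _ => Ut.mul) ut_one h

theorem hl_j : Hl jF := reg_j

theorem ut_sF {c : ℕ} {v : Fin 2 → ℚ} (hc : c ^ 2 % 24 = 1) (n : Sg.Nz c v) : Ut (Sg.sF c v) :=
  ut_inc (Sg.cv_sF hc n) (Sg.sg_ne n)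

variable (X : Mdl) {A : M2} (hA : 0 < A.det)

theorem od_pbF (τ : ℍ) (x : FF) : od τ (cv (X.pb A hA x)) = od (gl A hA • τ) (cv x) := by
  rw [X.pb_coe, pbz, od_pb]

theorem onto (σ : ℍ) : ∃ τ, gl A hA • τ = σ := ⟨_, smul_inv_smul _ σ⟩

theorem hl_pb : Hl (X.pb A hA x) ↔ Hl x := by
  simp only [Hl, X.pb_coe, pbz, Pu.reg_pb]
  exact ⟨fun h σ => (onto hA σ).elim fun τ e => e ▸ h τ, fun h τ => h _⟩

theorem ut_pb : Ut (X.pb A hA x) ↔ Ut x := by
  simp only [Ut, od_pbF, map_ne_zero]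
  exact and_congr_right fun _ => ⟨fun h σ => (onto hA σ).elim fun τ e => e ▸ h τ, fun h τ => h _⟩

theorem lp_pb : Lp (X.pb A hA x) ↔ Lp x := by
  have : ∀ τ c, od τ (cv (X.pb A hA x) - algebraMap ℂ Mer c) =
      od (gl A hA • τ) (cv x - algebraMap ℂ Mer c) := fun τ c => by
    rw [← od_pb (gl_pos A hA), map_sub, AlgEquiv.commutes, X.pb_coe, pbz]
  simp only [Lp, hl_pb, this]
  exact and_congr_right fun _ => ⟨fun h σ => (onto hA σ).elim fun τ e => e ▸ h τ, fun h τ => h _⟩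

theorem lp_t : Lp X.t := by
  obtain ⟨P, hP, e, d, -⟩ := X.hol
  refine ⟨hl_inc e, fun τ c h => ?_⟩
  have := od_D h.ne'
  rw [map_sub, Derivation.map_algebraMap, sub_zero, (congrArg DM e).trans (DM_jm ⟨P, hP⟩),
    od_unit (u := dH ⟨P, hP⟩) (d τ)] at this
  omega

/-! ### the level fields -/

variable {F F' : Type*} [Field F] [Field F'] [Algebra Qb F] [Algebra Qb F'] {e : F →ₐ[Qb] FF}
  {e' : F' →ₐ[Qb] FF} {j z : F} {τ : ℍ}

theorem tr_of (hj : e j = jF) : Transcendental Qb j := fun ha => by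
  obtain ⟨a, k⟩ := minpoly.mem_range_of_degree_eq_one _ _
    (IsAlgClosed.degree_eq_one_of_irreducible Qb (minpoly.irreducible ha.isIntegral))
  exact jF_ne a (by rw [← hj, ← k, e.commutes])

theorem ex_gamma (x : FF) : ∃ N, 0 < N ∧ x ∈ L (Gamma N) :=
  let ⟨N, h, k, _⟩ := cv_mem x
  ⟨N, h, fun _ m => act_eq_self k m⟩

/-- a function field in `FF` has a level -/
theorem ex_lev [CFF Qb F] (hj : e j = jF) : ∃ N, 0 < N ∧ ∀ z, e z ∈ L (Gamma N) := by
  have := finite_of_transcendental (k := Qb) (K := Qb⟮j⟯) (L := F)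
    (x := IntermediateField.AdjoinSimple.gen Qb j) (tr_of (e := e.comp (Qb⟮j⟯).val) hj)
  obtain ⟨s, hs⟩ := Module.Finite.fg_top (R := Qb⟮j⟯) (M := F)
  choose n n0 hn using fun z => ex_gamma (e z)
  refine ⟨∏ z ∈ s, n z, Finset.prod_pos fun z _ => n0 z, fun z => ?_⟩
  induction (hs.ge (Submodule.mem_top (x := z))) using Submodule.span_induction with
  | mem z m =>
    obtain ⟨c, k⟩ := Finset.dvd_prod_of_mem n m
    exact L_mono (k ▸ gamma_le) (hn z)
  | zero => simpa using zero_mem _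
  | add _ _ _ _ p q => simpa using add_mem p q
  | smul c _ _ p =>
    rw [Algebra.smul_def, map_mul]
    exact mul_mem ((IntermediateField.adjoin_simple_le_iff (K := (L _).comap e)).2
      (show e j ∈ _ from hj ▸ jF_mem _) c.2) p

variable (e) in
/-- `P` is the place of the point `τ` -/
def Pt (τ : ℍ) (P : Plk Qb F) : Prop := ∀ z, z ∈ P.1 ↔ Reg τ (cv (e z))

theorem Pt.uniq {P Q : Plk Qb F} (h : Pt e τ P) (k : Pt e τ Q) : P = Q :=
  Subtype.ext (ValuationSubring.ext _ _ fun z => (h z).trans (k z).symm)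

/-- the place of a point with an algebraic invariant -/
theorem ex_pl (hj : e j = jF) {a : Qb} (ha : jf τ = io a) : ∃ P, Pt e τ P ∧
    (j - algebraMap Qb F a)⁻¹ ∉ P.1 := by
  have n : ¬ Reg τ (cv (e (j - algebraMap Qb F a)⁻¹)) := fun h => by
    have := P004Z.Ar.Fn.od_j τ
    rw [map_inv₀, map_sub, hj, e.commutes, map_inv₀, map_sub, cv_alg, cv_jF, ← ha, reg_iff, od_inv,
      inv_eq_zero, or_iff_right (sub_ne_zero.2 (jM_ne_const _))] at h
    omega
  exact ⟨⟨(pl τ).comap ((cv.comp e : F →ₐ[Qb] Mer) : F →+* Mer), fun c => by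
    change Reg τ (cv (e _))
    rw [e.commutes, cv_alg]
    exact reg_const τ _, fun k => n ((SetLike.ext_iff.1 k _).2 (ValuationSubring.mem_top _))⟩,
    fun _ => Iff.rfl, n⟩

variable [CFF Qb F] [CFF Qb F'] {P : Plk Qb F} {P' : Plk Qb F'}

theorem pos_of {w : F} (n : w⁻¹ ∉ P.1) : 0 < ord P w := by
  rw [mem_iff_ord, ord_inv] at n
  omega

theorem ex_pt0 {N : ℕ} (hN : 0 < N) (P : Plk Qb (L (Gamma N))) (h : jL _ ∈ P.1) :
    ∃ τ, Pt (L _).val τ P := by
  obtain ⟨X⟩ := mdl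
  have : NeZero N := ⟨hN.ne'⟩
  have := cff (Gamma N) inferInstance
  have := cff ⊤ inferInstance
  let _ := algL (le_top : Gamma N ≤ ⊤)
  have := towerL (le_top : Gamma N ≤ ⊤)
  obtain ⟨fd, g⟩ := artin X ⊤ (Gamma N) le_top inferInstance
  obtain ⟨ga, sur, -⟩ := g fun γ _ δ m => (Gamma_normal N).conj_mem δ m γ
  obtain ⟨a, k⟩ := exists_cst P h
  obtain ⟨τ, ha⟩ := j_onto (io a)
  obtain ⟨Q, q, n⟩ := ex_pl (e := (L (Gamma N)).val) (j := jL _) rfl ha
  obtain ⟨σ, rfl⟩ := exists_conj_eq (K := L ⊤) (Pla.zero_unique (adj_jL a)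
    ((ord_up_pos_iff Q _).1 (pos_of n))
    ((ord_up_pos_iff P _).1 (k.resolve_left fun l => jF_ne a (congrArg Subtype.val l))))
  obtain ⟨γ, -, e⟩ := sur σ.symm
  exact ⟨γ • τ, fun z => (q _).trans (by
    change Reg τ (cv (σ.symm z : L _)) ↔ _
    rw [e, Bc.cv_pg, reg_act]
    rfl)⟩

/-- **the places over the open curve are points** -/
theorem ex_pt (hj : e j = jF) (h : j ∈ P.1) : ∃ τ, Pt e τ P := by
  obtain ⟨N, hN, m⟩ := ex_lev hj
  have := cff (Gamma N) (fi_gamma hN le_rfl)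
  let _ : Algebra F (L (Gamma N)) := ((e : F →+* FF).codRestrict _ m).toAlgebra
  have : IsScalarTower Qb F (L (Gamma N)) :=
    .of_algebraMap_eq fun a => Subtype.ext (e.commutes a).symm
  have := finite_of_transcendental (k := Qb) (L := L (Gamma N)) (tr_of hj)
  obtain ⟨Q, rfl⟩ := exists_over (L := L (Gamma N)) P
  have k : algebraMap F (L (Gamma N)) j = jL _ := Subtype.ext hj
  obtain ⟨τ, q⟩ := ex_pt0 hN Q (k ▸ h)
  exact ⟨τ, fun z => q _⟩

theorem Pt.pos (h : Pt e τ P) : 0 < ord P z ↔ 0 < od τ (cv (e z)) := by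
  have := h z⁻¹
  rw [mem_iff_ord, reg_iff, ord_inv, map_inv₀, map_inv₀, od_inv, inv_eq_zero, inv_eq_zero,
    map_eq_zero, map_eq_zero] at this
  rcases eq_or_ne z 0 with rfl | n
  · simp [ord_zero, od_zero]
  · simp only [n, false_or] at this
    omega

theorem Pt.one (h : Pt e τ P) {t : F} (ht : Lp (e t)) (n : ∀ a, t ≠ algebraMap Qb F a) :
    ∃ π, od τ (cv (e π)) = 1 := by
  obtain ⟨a, k⟩ := exists_cst P ((h t).2 (ht.1 τ))
  have := h.pos.1 (k.resolve_left (n a))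
  rw [map_sub, map_sub, e.commutes, cv_alg] at this
  exact ⟨t - algebraMap Qb F a, by rw [map_sub, map_sub, e.commutes, cv_alg, ht.2 τ _ this]⟩

theorem Pt.ord (h : Pt e τ P) (k : ∃ π, od τ (cv (e π)) = 1) (z : F) :
    ord P z = od τ (cv (e z)) :=
  have o := isOrd_pl τ
  have n : ∀ {x}, x ≠ 0 → cv (e x) ≠ 0 := fun a => (map_ne_zero _).2 ((map_ne_zero _).2 a)
  congrFun (IsOrd.unique (ord_spec P) (g := fun z => od τ (cv (e z)))
    ⟨by rw [map_zero, map_zero, od_zero], fun x y a b => by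
      rw [map_mul, map_mul, o.mul _ _ (n a) (n b)], fun x y a b c => by
      have := n c
      rw [map_add, map_add] at this ⊢
      exact o.add _ _ (n a) (n b) this, fun x => by rw [h, reg_iff, map_eq_zero, map_eq_zero], k⟩) z

theorem Hl.mem (h : Hl (e z)) (hj : e j = jF) (m : j ∈ P.1) : z ∈ P.1 :=
  let ⟨τ, q⟩ := ex_pt hj m
  (q z).2 (h τ)

/-- **units** -/
theorem Ut.ord (h : Ut (e z)) (hj : e j = jF) (m : j ∈ P.1) : ord P z = 0 := by
  have a := ord_nonneg_of_mem P (h.hl.mem hj m)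
  have b := ord_nonneg_of_mem P (Hl.mem (z := z⁻¹) (map_inv₀ e z ▸ h.inv.hl) hj m)
  rw [ord_inv] at b
  omega

/-- **change of `j`** -/
theorem chg (hj : e j = jF) (hz : e z = X.pb A hA jF) : z ∈ P.1 ↔ j ∈ P.1 :=
  ⟨fun m => Hl.mem (e := ((X.pb A hA).symm : FF →ₐ[Qb] FF).comp e) ((hl_pb X hA).1 (by
    simpa [hj] using hl_j)) (by simp [hz]) m, Hl.mem (hz ▸ (hl_pb X hA).2 hl_j) hj⟩

/-- **unramified over the open curve** -/
theorem ord_one (hj : e j = jF) (m : j ∈ P.1) {t : F} (ht : e t = X.pb A hA X.t) :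
    ∃ a, ord P (t - algebraMap Qb F a) = 1 := by
  obtain ⟨τ, q⟩ := ex_pt hj m
  have l : Lp (e t) := ht ▸ (lp_pb X hA).2 (lp_t X)
  have n : ∀ a, t ≠ algebraMap Qb F a := fun a k => X.t_ne a ((X.pb A hA).injective (by
    rw [← ht, k, e.commutes, AlgEquiv.commutes]))
  obtain ⟨a, k⟩ := exists_cst P ((q t).2 (l.1 τ))
  have := q.pos.1 (k.resolve_left (n a))
  refine ⟨a, ?_⟩
  rw [q.ord (q.one l n)]
  rw [map_sub, map_sub, e.commutes, cv_alg] at this ⊢
  exact l.2 τ _ this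

theorem unr {K : Type*} [Field K] [Algebra Qb K] [Algebra K F] [IsScalarTower Qb K F] [CFF Qb K]
    [Algebra.IsAlgebraic K F] (hj : e j = jF) (m : j ∈ P.1) {t : K}
    (ht : e (algebraMap K F t) = X.pb A hA X.t) : ram K P = 1 :=
  let ⟨a, k⟩ := ord_one X hA hj m ht
  ram_eq_one_of_exists (z := t - algebraMap Qb K a) (by
    rwa [map_sub, ← IsScalarTower.algebraMap_apply])

/-! ### along any homomorphism -/

section hom

variable {K : Type*} [Field K] {O : ValuationSubring K}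

theorem Hl.val (h : Hl (e z)) (hj : e j = jF) (φ : F →+* K) (c : ∀ a, φ (algebraMap Qb F a) ∈ O)
    (m : φ j ∈ O) : φ z ∈ O := by
  by_cases t : O.comap φ = ⊤
  · exact (SetLike.ext_iff.1 t z).2 (ValuationSubring.mem_top _)
  · exact h.mem (P := ⟨_, c, t⟩) hj m

theorem Hl.hom (h : Hl x) (φ : FF →+* K) (c : ∀ a, φ (algebraMap Qb FF a) ∈ O) (m : φ jF ∈ O) :
    φ x ∈ O :=
  let ⟨N, hN, k⟩ := ex_gamma x
  have := cff (Gamma N) (fi_gamma hN le_rfl)
  Hl.val (e := (L _).val) (z := ⟨x, k⟩) (j := jL _) h rfl (φ.comp (L (Gamma N)).val.toRingHom) c m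

theorem Hl.gal (h : Hl x) (g : GQ) : Hl (X.gal g x) := fun τ =>
  h.hom (O := pl τ) ((cv : FF →+* Mer).comp (X.gal g)) (fun a => by
    change Reg τ (cv (X.gal g _))
    rw [(x_galx X).2.1, cv_alg]
    exact reg_const τ _) (by
    change Reg τ (cv (X.gal g _))
    rw [gal_jF]
    exact hl_j τ)

theorem Ut.gal (h : Ut x) (g : GQ) : Ut (X.gal g x) :=
  ut_of ((map_ne_zero _).2 h.1) (h.hl.gal X g) (map_inv₀ (X.gal g) x ▸ h.inv.hl.gal X g)

variable {Ω : Type*} [Field Ω] [Algebra Qb Ω] {ι : FF →ₐ[Qb] Ω}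

/-- a field in the image of `FF` -/
def eo (ι : FF →ₐ[Qb] Ω) (μ : F' →ₐ[Qb] Ω) (h : ∀ z, ∃ x, ι x = μ z) : F' →ₐ[Qb] FF :=
  ((AlgEquiv.ofInjectiveField ι).symm : ι.range →ₐ[Qb] FF).comp (μ.codRestrict _ h)

omit [CFF Qb F'] in
theorem eo_spec (μ : F' →ₐ[Qb] Ω) (h : ∀ z, ∃ x, ι x = μ z) (z : F') : ι (eo ι μ h z) = μ z :=
  congrArg Subtype.val ((AlgEquiv.ofInjectiveField ι).apply_symm_apply ⟨μ z, h z⟩)

omit [CFF Qb F'] in
theorem eo_eq {μ : F' →ₐ[Qb] Ω} (h : ∀ z, ∃ x, ι x = μ z) {z : F'} (k : μ z = ι x) :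
    eo ι μ h z = x := (ι : FF →+* Ω).injective ((eo_spec μ h z).trans k)

variable {μ : F →ₐ[Qb] Ω}

/-- any function field in a field above `FF` -/
theorem Hl.om (h : Hl x) (hz : μ z = ι x) (hj : μ j = ι jF) (m : j ∈ P.1) : z ∈ P.1 := by
  let K := ι.fieldRange.comap μ
  let d := eo ι (μ.comp K.val) fun z => z.2
  have k : d ⟨j, jF, hj.symm⟩ = jF := eo_eq _ hj
  have := cff_of K.val (tr_of k)
  have l : d ⟨z, x, hz.symm⟩ = x := eo_eq _ hz
  exact Hl.val (O := P.1) (l.symm ▸ h) k K.val.toRingHom P.2.1 m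

theorem Ut.om (h : Ut x) (hz : μ z = ι x) (hj : μ j = ι jF) (m : j ∈ P.1) :
    P019P.ord P z = 0 := by
  have a := ord_nonneg_of_mem P (h.hl.om hz hj m)
  have b := ord_nonneg_of_mem P (h.inv.hl.om (z := z⁻¹) (by rw [map_inv₀, map_inv₀, hz]) hj m)
  rw [ord_inv] at b
  omega

theorem chg_om (hj : μ j = ι jF) (hz : μ z = ι (X.pb A hA jF)) : z ∈ P.1 ↔ j ∈ P.1 :=
  ⟨Hl.om (ι := ι.comp (X.pb A hA)) (x := (X.pb A hA).symm jF) ((hl_pb X hA).1 (by
    simpa using hl_j)) (by simpa using hj) hz, ((hl_pb X hA).2 hl_j).om hz hj⟩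

theorem unr_om {K : Type*} [Field K] [Algebra Qb K] [Algebra K F] [IsScalarTower Qb K F] [CFF Qb K]
    [Algebra.IsAlgebraic K F] (h : ∀ z, ∃ x, ι x = μ z) (hj : μ j = ι jF) (m : j ∈ P.1) {t : K}
    (ht : μ (algebraMap K F t) = ι (X.pb A hA X.t)) : ram K P = 1 :=
  unr X hA (eo_eq h hj) m (eo_eq h ht)

end hom

end Vale.Agent.P014T.Uy
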