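import Vale.Agent.P014T.Uy.Lv
import Vale.Agent.P014T.Ts.Z

/-! # P014T: the class of a symbol of modular units (helper27) -/

set_option autoImplicit false
set_option linter.all false

open CongruenceSubgroup Filter Topology
open scoped MatrixGroups Classical

noncomputable section

namespace Vale.Agent.P014T.Uy

open Vale.Agent.P022 H231.L3 P027M.M Dc P019P P025H492 Nr P022K.QT.Cu
open Ts hiding Lev io Un
open P027M.K (SL res0 res0_spec res0_eq)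
open Dr (Hm Ha)
open Kc (Fx)

variable {a b : ℚ} {g h : GQ} {m : ℕ} {k : ℤ}

/-- the Galois action on points -/
def gE (g : GQ) : Ep Qb a b →+ Ep Qb a b := P004M.TE.ga g

theorem gE_ea (x : Ep Qb a b) : gE g x = ea g.toRingEquiv x := by
  rcases x with _ | ⟨u, v, n⟩
  · rfl
  · exact (P004M.TE.ga_some g n).trans (Pu.mp_some (g.toRingEquiv : Qb →+* Qb) (map_ratCast _ _)
      (map_ratCast _ _) n).symm

theorem sm_gE {M : Type} [Field M] [Algebra Qb M] {θ : SL Qb M} (e : res0 θ = g.toRingEquiv)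
    (x : Ep Qb a b) : θ • x = gE g x := by rw [ep_sm, e, gE_ea]

theorem dv_two (hD : 4 * a ^ 3 + 27 * b ^ 2 ≠ 0) (n : ℕ) (e : Ep Qb a b) : ∃ q, 2 ^ n • q = e := by
  induction n generalizing e with
  | zero => exact ⟨e, one_smul _ _⟩
  | succ n i =>
    obtain ⟨q, rfl⟩ := i e
    obtain ⟨p, rfl⟩ : ∃ p : Ep Qb a b, 2 • p = q := P004M.TE.dbl_surj two_ne_zero hD q
    exact ⟨p, by rw [pow_succ, mul_smul]⟩

theorem prim_E (hm : m ≠ 0) : IsPrimitiveRoot (E (1 / m)) m :=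
  have n : (m : ℚ) ≠ 0 := Nat.cast_ne_zero.2 hm
  .mk_of_lt _ (Nat.pos_of_ne_zero hm)
    (by rw [← E_nat, mul_one_div_cancel n, ← Int.cast_one, E_int]) fun l a b e => by
      rw [← E_nat, E_eq_one] at e
      obtain ⟨c, e⟩ := e
      rw [mul_one_div, div_eq_iff n] at e
      exact (Nat.le_of_dvd a (Int.natCast_dvd_natCast.1 ⟨c, by rw [mul_comm]; exact_mod_cast e⟩)).not_gt b

theorem cyc_pow (hm : m ≠ 0) (c : Cyc m g k) {z : Qb} (e : z ^ m = 1) : g z = z ^ k := by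
  have : NeZero m := ⟨hm⟩
  obtain ⟨i, -, rfl⟩ := (prim_E hm).eq_pow_of_pow_eq_one e
  rw [map_pow, cyc_iff.1 c, ← mul_one_div, Sg.E_zpow, ← zpow_natCast, ← zpow_natCast, ← zpow_mul,
    ← zpow_mul, mul_comm]

theorem hm_of (hm : m ≠ 0) {z : Qb} (p : IsPrimitiveRoot z m) (e : g z = z) : g ∈ Hm m := fun w l => by
  have : NeZero m := ⟨hm⟩
  obtain ⟨i, -, rfl⟩ := p.eq_pow_of_pow_eq_one l
  rw [map_pow, e]

theorem ex_root (hm : m ≠ 0) {x : Om} (n : x ≠ 0) : ∃ α : Ts.Un Om, vv (m • α) = x :=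
  let ⟨y, e⟩ := IsAlgClosed.exists_pow_nat_eq x (Nat.pos_of_ne_zero hm)
  ⟨un' y fun l => n (by rw [← e, l, zero_pow hm]), (vv_nsmul _ _).trans e⟩

open H218.L3 H236.L3 P022K.F0.Cf in
theorem Hl.sm {x : FF} (h : Hl x) {s : Au} (k : Hl (s.1 jF)) : Hl (s.1 x) := fun τ =>
  h.hom (O := pl τ) ((cv : FF →+* Mer).comp s.1) (fun a => by
    change Reg τ (cv (s.1 _))
    rw [res0_spec, cv_alg]
    exact reg_const τ _) (k τ)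

theorem Ut.sm {x : FF} (h : Ut x) {s : Au} (k : Hl (s.1 jF)) : Ut (s.1 x) :=
  ut_of ((map_ne_zero _).2 h.1) (h.hl.sm k) (map_inv₀ s.1 x ▸ h.inv.hl.sm k)

variable (X : Mdl) (hD : 4 * a ^ 3 + 27 * b ^ 2 ≠ 0)

/-- the group of the level `Γ` over the fixed field of `D` -/
abbrev HG (Γ : Subgroup SL(2, ℤ)) (D : Subgroup GQ) : Subgroup (SL Qb Om) := HO Γ (D.map (gH X))

/-- `θ` lifts `g` on the level `Γ` -/
def Lf (Γ : Subgroup SL(2, ℤ)) (θ : SL Qb Om) (g : GQ) : Prop :=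
  ∀ f ∈ L Γ, θ.1 (iO f) = iO (X.gal g f)

/-- the standing hypotheses -/
structure Bd (Γ : Subgroup SL(2, ℤ)) (D : Subgroup GQ) (ξ : Pm FF a b) (m : ℕ) (ζ : Qbˣ) :
    Prop where
  lev : Lev Γ
  sb : D.map (gH X) ≤ Sb Γ
  cu : ξ ∈ Cu hD
  df : Df Γ ξ
  fx : ∀ g ∈ D, gA X g • ξ = ξ
  m0 : m ≠ 0
  pr : IsPrimitiveRoot ζ m
  hm : D ≤ Hm m
  dv : ∀ e : Ep Qb a b, ∃ q, m • q = e

/-- units of level `Γ` over the fixed field of `D` -/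
structure Ud (Γ : Subgroup SL(2, ℤ)) (D : Subgroup GQ) (u : FF) : Prop where
  ut : Ut u
  mem : u ∈ L Γ
  fx : ∀ g ∈ D, X.gal g u = u

/-- **`z` is a cocycle on `D` of the class of the symbol of `u` and `v`, pushed along `ξ`** -/
structure Zf (Γ : Subgroup SL(2, ℤ)) (D : Subgroup GQ) (ξ : Pm FF a b) (m : ℕ) (ζ : Qbˣ) (u v : FF)
    (z : GQ → Ep Qb a b) : Prop where
  bd : Bd X hD Γ D ξ m ζ
  u1 : Ud X Γ D u
  u2 : Ud X Γ D v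
  zc : ∃ α β y, vv (m • α) = iO u ∧ vv (m • β) = iO v ∧
    Zc hD jO (LO Γ) (HG X Γ D) (pO ξ) m ζ α β y ∧ ∀ g ∈ D, ∀ θ, Lf X Γ θ g → y θ = z g

variable {X hD} {Γ Γ' : Subgroup SL(2, ℤ)} {D D' : Subgroup GQ} {ξ ξ' : Pm FF a b} {ζ ζ' : Qbˣ}
  {u v u' v' : FF} {z z' : GQ → Ep Qb a b} {θ η : SL Qb Om} {α β : Ts.Un Om}
  {y : SL Qb Om → Ep Qb a b}

theorem lf_up (X : Mdl) (Γ : Subgroup SL(2, ℤ)) (g : GQ) : Lf X Γ (up (gA X g)) g :=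
  fun f _ => up_spec (gA X g) f

theorem Lf.mem (l : Lf X Γ θ g) (s : D.map (gH X) ≤ Sb Γ) (n : g ∈ D) : θ ∈ HG X Γ D :=
  (mem_HG X s).2 ⟨g, n, l⟩

theorem Lf.res (l : Lf X Γ θ g) : res0 θ = g.toRingEquiv :=
  (res_of (s := gA X g) l).trans (res_gA X g)

theorem Lf.sm (l : Lf X Γ θ g) (x : Ep Qb a b) : θ • x = gE g x := sm_gE l.res x

theorem Lf.mono (l : Lf X Γ' θ g) (le : Γ' ≤ Γ) : Lf X Γ θ g := fun f n => l f (L_mono le n)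

theorem Lf.mul (l : Lf X Γ θ g) (l' : Lf X Γ η h) (s : gA X h ∈ Sb Γ) : Lf X Γ (θ * η) (g * h) :=
  fun f n => by rw [sl_mul, l' f n, l (X.gal h f) ((s f).2 n), map_mul]; rfl

theorem Lf.fi (l : Lf X Γ θ g) (l' : Lf X Γ η g) : θ⁻¹ * η ∈ Fi (LO Γ) :=
  LO_all.2 fun f n => by rw [sl_mul, l' f n, ← l f n, sl_inv']

theorem Bd.z1 (B : Bd X hD Γ D ξ m ζ) : (ζ : Qb) ^ m = 1 :=
  (IsPrimitiveRoot.coe_units_iff.2 B.pr).pow_eq_one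

theorem Bd.bs (B : Bd X hD Γ D ξ m ζ) : Bs hD jO (LO Γ) (HG X Γ D) (pO ξ) m ζ := by
  have := cffO (Lev.fi B.lev)
  obtain ⟨ξ₀, e⟩ := B.df.lo le_rfl
  refine ⟨lev_HG X (Lev.fi B.lev) D, fun θ l => HO_pt l B.df ?_, ⟨this, ξ₀, e, fun P n =>
    cu_sq B.cu (LO Γ).val e (j := ⟨_, jO_mem Γ⟩) rfl P fun l => n ((mem_yj _).2 l)⟩, B.m0, B.pr,
    fun θ l => ?_, B.dv⟩
  · rintro _ ⟨g, n, rfl⟩
    exact B.fx g n
  · obtain ⟨g, n, e⟩ := (mem_HG X B.sb).1 l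
    rw [Lf.res e]
    exact B.hm n _ B.z1

theorem bd_of (l : Lev Γ) (s : D.map (gH X) ≤ Sb Γ) (c : ξ ∈ Cu hD)
    (B : Bs hD jO (LO Γ) (HG X Γ D) (pO ξ) m ζ) : Bd X hD Γ D ξ m ζ := by
  refine ⟨l, s, c, ?_, fun g n => mq_inj (iO : FF →+* Om)
    (((up_spec _).sm ξ).symm.trans (B.fx _ (up_HG X s n))), B.m0, B.pr, fun g n => hm_of B.m0
      (IsPrimitiveRoot.coe_units_iff.2 B.pr) ?_, B.dv⟩
  · rintro x y n rfl
    obtain ⟨_, ξ₀, e, -⟩ := B.cu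
    obtain ⟨p, q, -, -, e1, e2⟩ := mq_some _ (e.trans (mq_sm _ n).2)
    exact ⟨iO_mem.1 (show (iO : FF →+* Om) x ∈ _ from e1 ▸ p.2),
      iO_mem.1 (show (iO : FF →+* Om) y ∈ _ from e2 ▸ q.2)⟩
  · have := B.fz _ (up_HG X s n)
    rwa [res_up] at this

theorem Ud.fo (U : Ud X Γ D u) (e : vv α = iO u) : Fx (HG X Γ D) α := fun θ l => vv_inj (by
  rw [vv_smul, e]
  refine HO_fix l U.mem ?_
  rintro _ ⟨g, n, rfl⟩
  exact U.fx g n)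

theorem ud_of (B : Bd X hD Γ D ξ m ζ) (t : Ut u) (e : vv α = iO u) (f : Fx (HG X Γ D) α) :
    Ud X Γ D u :=
  have k : ∀ θ ∈ HG X Γ D, θ.1 (iO u) = iO u := fun θ l => e ▸ congrArg vv (f θ l)
  ⟨t, iO_mem.1 (B.bs.lv.mem fun θ l => k θ (B.bs.lv.le l)), fun g n =>
    iO_inj ((up_spec (gA X g) u).symm.trans (k _ (up_HG X B.sb n)))⟩

theorem Ud.mono (U : Ud X Γ D u) (l : Γ' ≤ Γ) (l' : D' ≤ D) : Ud X Γ' D' u :=
  ⟨U.ut, L_mono l U.mem, fun g n => U.fx g (l' n)⟩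

theorem Ud.mul (U : Ud X Γ D u) (V : Ud X Γ D v) : Ud X Γ D (u * v) :=
  ⟨U.ut.mul V.ut, mul_mem U.mem V.mem, fun g n => by rw [map_mul, U.fx g n, V.fx g n]⟩

theorem ud_un : Nr.Un X Γ u ↔ Ud X Γ Ha u :=
  ⟨fun U => ⟨Un.ut U, U.mem, U.fix⟩, fun U => ⟨U.mem, U.ut.hol, U.fx⟩⟩

theorem Bd.mono (B : Bd X hD Γ D ξ m ζ) (l : D' ≤ D) : Bd X hD Γ D' ξ m ζ :=
  ⟨B.lev, (Subgroup.map_mono l).trans B.sb, B.cu, B.df, fun g n => B.fx g (l n), B.m0, B.pr,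
    l.trans B.hm, B.dv⟩

theorem bd_xi (l : Lev Γ) (x : Xi X (Cu hD) Γ ξ) (m0 : m ≠ 0) (p : IsPrimitiveRoot ζ m)
    (d : ∀ e : Ep Qb a b, ∃ q, m • q = e) : Bd X hD Γ Ha ξ m ζ :=
  ⟨l, ha_Sb X Γ, x.cu, (df_iff X).2 x.inv, x.fix, m0, p, Dr.Ha_le m0, d⟩

/-- introduction -/
theorem zf_of (B : Bd X hD Γ D ξ m ζ) (t : Ut u) (t' : Ut v) (e : vv (m • α) = iO u)
    (e' : vv (m • β) = iO v) (c : Zc hD jO (LO Γ) (HG X Γ D) (pO ξ) m ζ α β y)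
    (f : ∀ g ∈ D, ∃ θ, Lf X Γ θ g ∧ y θ = z g) : Zf X hD Γ D ξ m ζ u v z :=
  ⟨B, ud_of B t e c.fx.1, ud_of B t' e' c.fx.2, α, β, y, e, e', c, fun g n θ l =>
    let ⟨η, l', r⟩ := f g n
    by rw [← r, ← c.geo (l'.mem B.sb n) (l'.fi l), mul_inv_cancel_left]⟩

/-- **existence** -/
theorem Bd.ex (B : Bd X hD Γ D ξ m ζ) (U : Ud X Γ D u) (V : Ud X Γ D v) :
    ∃ z, Zf X hD Γ D ξ m ζ u v z := by
  obtain ⟨α, e⟩ := ex_root B.m0 ((map_ne_zero iO).2 U.ut.1)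
  obtain ⟨β, e'⟩ := ex_root B.m0 ((map_ne_zero iO).2 V.ut.1)
  obtain ⟨y, c⟩ := Zc.ex B.bs (U.fo e) (V.fo e') (e ▸ U.ut.unt (jO_mem Γ) m)
    (e' ▸ V.ut.unt (jO_mem Γ) m)
  exact ⟨_, zf_of B U.ut V.ut e e' c fun g _ => ⟨_, lf_up X Γ g, rfl⟩⟩

section

variable (Z : Zf X hD Γ D ξ m ζ u v z)
include Z

/-- any roots -/
theorem Zf.at (e : vv (m • α) = iO u) (e' : vv (m • β) = iO v) :
    ∃ y, Zc hD jO (LO Γ) (HG X Γ D) (pO ξ) m ζ α β y ∧ ∀ g ∈ D, ∀ θ, Lf X Γ θ g → y θ = z g :=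
  let ⟨_, _, y, d, d', c, f⟩ := Z.zc
  ⟨y, c.root (vv_inj (e.trans d.symm)) (vv_inj (e'.trans d'.symm)), f⟩

/-- **uniqueness** -/
theorem Zf.uniq (Z' : Zf X hD Γ D ξ m ζ u v z') :
    ∃ q, m • q = 0 ∧ ∀ g ∈ D, z g = z' g + (gE g q - q) := by
  obtain ⟨α, β, y, e, e', c, f⟩ := Z.zc
  obtain ⟨y', c', f'⟩ := Z'.at e e'
  obtain ⟨q, t, r⟩ := c.uniq c'
  refine ⟨q, t, fun g n => ?_⟩
  have l := lf_up X Γ g
  rw [← f g n _ l, ← f' g n _ l, r _ (l.mem Z.bd.sb n), l.sm]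

theorem Zf.cob (q : Ep Qb a b) (t : m • q = 0) (r : ∀ g ∈ D, z' g = z g + (gE g q - q)) :
    Zf X hD Γ D ξ m ζ u v z' :=
  let ⟨α, β, y, e, e', c, f⟩ := Z.zc
  ⟨Z.bd, Z.u1, Z.u2, α, β, _, e, e', c.cob q t fun _ _ => rfl, fun g n θ l => by
    rw [r g n, ← f g n θ l, ← l.sm]⟩

theorem Zf.congr (r : ∀ g ∈ D, z' g = z g) : Zf X hD Γ D ξ m ζ u v z' :=
  let ⟨α, β, y, e, e', c, f⟩ := Z.zc
  ⟨Z.bd, Z.u1, Z.u2, α, β, y, e, e', c, fun g n θ l => (f g n θ l).trans (r g n).symm⟩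

theorem Zf.coc (n : g ∈ D) (n' : h ∈ D) : z (g * h) = z g + gE g (z h) := by
  obtain ⟨α, β, y, e, e', c, f⟩ := Z.zc
  have l := lf_up X Γ g
  have l' := lf_up X Γ h
  rw [← f _ (mul_mem n n') _ (l.mul l' (Z.bd.sb ⟨h, n', rfl⟩)),
    c.coc (l.mem Z.bd.sb n) (l'.mem Z.bd.sb n'), f g n _ l, f h n' _ l', l.sm]

theorem Zf.tor (n : g ∈ D) : m • z g = 0 :=
  let ⟨_, _, _, _, _, c, f⟩ := Z.zc
  f g n _ (lf_up X Γ g) ▸ c.tor (up_HG X Z.bd.sb n)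

theorem Zf.ev : ∀ᶠ g in 𝓝 (1 : GQ), g ∈ D → z g = 0 := by
  obtain ⟨α, β, y, e, e', c, f⟩ := Z.zc
  have := c.lc (l := (𝓝 (1 : GQ)).map fun g => up (gA X g)) (LO_all.2 fun x _ =>
    eventually_map.2 (mem_of_superset (((x_galx X).2.2.2.2.2 x).mem_nhds
      (show X.gal 1 x = x by rw [map_one]; rfl)) fun g l => (up_spec (gA X g) x).trans
        (congrArg iO l)))
  exact (eventually_map.1 this).mono fun g r n =>
    f g n _ (lf_up X Γ g) ▸ r (up_HG X Z.bd.sb n)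

/-- **local constancy** -/
theorem Zf.lc : ∃ W : Subgroup GQ, IsOpen (W : Set GQ) ∧ ∀ g ∈ W, g ∈ D → z g = 0 :=
  let ⟨K, _, l⟩ := (krullTopology_mem_nhds_one_iff ℚ Qb _).1 Z.ev
  ⟨K.fixingSubgroup, K.fixingSubgroup_isOpen, fun _ n => l n⟩

theorem Zf.skew : Zf X hD Γ D ξ m ζ v u (-z) :=
  let ⟨α, β, y, e, e', c, f⟩ := Z.zc
  ⟨Z.bd, Z.u2, Z.u1, β, α, -y, e', e, c.skew, fun g n θ l => congrArg (-·) (f g n θ l)⟩

theorem Zf.ml (Z' : Zf X hD Γ D ξ m ζ u' v z') : Zf X hD Γ D ξ m ζ (u * u') v (z + z') := by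
  obtain ⟨α, β, y, e, e', c, f⟩ := Z.zc
  obtain ⟨α', -, -, d, -⟩ := Z'.zc
  obtain ⟨y', c', f'⟩ := Z'.at d e'
  exact ⟨Z.bd, Z.u1.mul Z'.u1, Z.u2, _, _, _, by rw [smul_add, vv_add, e, d, map_mul], e',
    c.add_l c', fun g n θ l => congrArg₂ (· + ·) (f g n θ l) (f' g n θ l)⟩

theorem Zf.mr (Z' : Zf X hD Γ D ξ m ζ u v' z') : Zf X hD Γ D ξ m ζ u (v * v') (z + z') := by
  simpa only [neg_add_rev, neg_neg, add_comm] using (Z.skew.ml Z'.skew).skew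

theorem Zf.add (Z' : Zf X hD Γ D ξ' m ζ u v z') : Zf X hD Γ D (ξ + ξ') m ζ u v (z + z') := by
  obtain ⟨α, β, y, e, e', c, f⟩ := Z.zc
  obtain ⟨y', c', f'⟩ := Z'.at e e'
  have := map_add pO ξ ξ' ▸ c.add_x c'
  exact ⟨bd_of Z.bd.lev Z.bd.sb (add_mem Z.bd.cu Z'.bd.cu) this.1, Z.u1, Z.u2, _, _, _, e, e',
    this, fun g n θ l => congrArg₂ (· + ·) (f g n θ l) (f' g n θ l)⟩

theorem Zf.zsmul (k : ℤ) : Zf X hD Γ D (k • ξ) m ζ u v (k • z) := by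
  obtain ⟨α, β, y, e, e', c, f⟩ := Z.zc
  have := map_zsmul pO k ξ ▸ c.zsmul_x k
  exact ⟨bd_of Z.bd.lev Z.bd.sb (zsmul_mem Z.bd.cu k) this.1, Z.u1, Z.u2, _, _, _, e, e',
    this, fun g n θ l => congrArg (k • ·) (f g n θ l)⟩

theorem Zf.mono (l : D' ≤ D) : Zf X hD Γ D' ξ m ζ u v z :=
  let ⟨α, β, y, e, e', c, f⟩ := Z.zc
  ⟨Z.bd.mono l, Z.u1.mono le_rfl l, Z.u2.mono le_rfl l, α, β, y, e, e',
    c.mono (HO_mono (Subgroup.map_mono l)) fun _ => fix_HO, fun g n => f g (l n)⟩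

theorem Zf.lev {n m' : ℕ} (r : m = m' * n) : Zf X hD Γ D ξ m' (ζ ^ n) u v (n • z) :=
  let ⟨α, β, y, e, e', c, f⟩ := Z.zc
  ⟨bd_of Z.bd.lev Z.bd.sb Z.bd.cu (c.lev r).1, Z.u1, Z.u2, _, _, _, by rw [← mul_smul, ← r, e],
    by rw [← mul_smul, ← r, e'], c.lev r, fun g l θ l' => congrArg (n • ·) (f g l θ l')⟩

theorem Zf.zeta (r : ζ = ζ' ^ k) (p : IsPrimitiveRoot ζ' m) : Zf X hD Γ D ξ m ζ' u v (k • z) :=
  let ⟨α, β, y, e, e', c, f⟩ := Z.zc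
  have B : Bd X hD Γ D ξ m ζ' := { Z.bd with pr := p }
  ⟨B, Z.u1, Z.u2, _, _, _, e, e', c.zeta r p B.bs.fz, fun g l θ l' => congrArg (k • ·) (f g l θ l')⟩

/-- **transport** -/
theorem Zf.cj {s : Au} {φ : GQ → GQ} (l : Lev Γ') (j : Hl (s.1 jF)) (j' : Hl (s⁻¹.1 jF))
    (hL : ∀ f, s.1 f ∈ L Γ' ↔ f ∈ L Γ)
    (hφ : ∀ g ∈ D', φ g ∈ D ∧ ∀ f ∈ L Γ, X.gal g (s.1 f) = s.1 (X.gal (φ g) f))
    (r : (ζ' : Qb) = res0 s ζ) :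
    Zf X hD Γ' D' (s • ξ) m ζ' (s.1 u) (s.1 v) fun g => s • z (φ g) := by
  obtain ⟨α, β, y, e, e', c, f⟩ := Z.zc
  have U := up_spec s
  have sb : D'.map (gH X) ≤ Sb Γ' := le_Sb (by
    rintro _ ⟨g, n, rfl⟩ x i
    have i' := (hL _).1 ((sl_inv s x).symm ▸ i)
    have := (hL _).2 ((Z.bd.sb ⟨_, (hφ g n).1, rfl⟩ _).2 i')
    exact sl_inv s x ▸ ((hφ g n).2 _ i').symm ▸ this)
  have lf : ∀ g ∈ D', ∀ θ, Lf X Γ' θ g → Lf X Γ ((up s)⁻¹ * θ * up s) (φ g) := fun g n θ i x o => by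
    rw [sl_mul, sl_mul, U, i _ ((hL x).2 o), (hφ g n).2 x o, ← U, sl_inv']
  have d' : Dm Qb ((up s).1 jO) jO := by
    have := j'.dm.conj (up s)
    rwa [U, sl_inv] at this
  have := U.sm ξ ▸ c.conj (up s) (lev_HG X (Lev.fi l) D') (U.iff hL) (fun θ i =>
    let ⟨g, n, o⟩ := (mem_HG X sb).1 i
    (lf g n θ o).mem Z.bd.sb (hφ g n).1) (U jF ▸ j.dm) d' (U.res ▸ r)
  refine zf_of (bd_of l sb (cu_sm Z.bd.cu j') this.1) (Z.u1.ut.sm j) (Z.u2.ut.sm j) ?_ ?_ this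
    fun g n => ⟨_, lf_up X Γ' g, ?_⟩
  · rw [← Kc.sm_n, vv_smul, e, U]
  · rw [← Kc.sm_n, vv_smul, e', U]
  · rw [f _ (hφ g n).1 _ (lf g n _ (lf_up X Γ' g)), ep_sm, ep_sm, U.res]

/-- **conjugation** -/
theorem Zf.conj {A : M2} (hA : 0 < A.det) (c : Dp.Cj A Γ Γ')
    (c' : ∀ g ∈ Γ, ∃ γ ∈ Γ', A * (γ : M2) = (g : M2) * A)
    (hc : ∀ g ∈ D, ∀ f ∈ L Γ, X.gal g (X.pb A hA f) = X.pb A hA (X.gal g f)) (l : Lev Γ') :
    Zf X hD Γ' D (pA X A hA • ξ) m ζ (X.pb A hA u) (X.pb A hA v) z :=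
  (Z.cj (s := pA X A hA) (φ := id) l ((hl_pb X hA).2 hl_j) ((hl_pb X hA).1
    (show Hl ((pA X A hA).1 _) from (sl_inv (pA X A hA) jF).symm ▸ hl_j)) (pb_iff X hA c c')
    (fun g n => ⟨n, hc g n⟩) (by rw [res_pA]; rfl)).congr fun g _ => (ep_one (res_pA X hA) _).symm

/-- **the Galois action** -/
theorem Zf.gal (l : Lev Γ') (c : Cyc m g k) (hL : ∀ f, X.gal g f ∈ L Γ' ↔ f ∈ L Γ)
    (n : ∀ h ∈ D', g⁻¹ * h * g ∈ D) :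
    Zf X hD Γ' D' (gA X g • ξ) m ζ (X.gal g u) (X.gal g v)
      (k • fun h => gE g (z (g⁻¹ * h * g))) := by
  have j : (gA X g).1 jF = jF := gal_jF X g
  refine ((Z.cj (s := gA X g) (φ := fun h => g⁻¹ * h * g) (ζ' := ζ ^ k) l (j.symm ▸ hl_j)
    (by rw [← j, sl_inv']; exact hl_j) hL (fun h i => ⟨n h i, fun f _ => ?_⟩) ?_).congr
    fun h _ => (sm_gE (res_gA X g) _).symm).zeta rfl Z.bd.pr
  · change X.gal h (X.gal g f) = X.gal g _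
    rw [← RingAut.mul_apply, ← RingAut.mul_apply, ← map_mul, ← map_mul, ← mul_assoc,
      mul_inv_cancel_left]
  · rw [res_gA, Units.val_zpow_eq_zpow_val]
    exact (cyc_pow Z.bd.m0 c Z.bd.z1).symm

end

variable {I : Type} [Fintype I] {r : I → SL(2, ℤ)}

theorem ex_adm (B : Bd X hD Γ D ξ m ζ) (le : Γ' ≤ Γ) (l : Lev Γ') :
    ∃ M, Adm jO (LO Γ) (HG X Γ D) M ∧ LO Γ' ≤ M :=
  let ⟨N, hN, i⟩ := l.lo
  ⟨_, adm_LO (Lev.g0 B.lev) (i.trans le) (fi_gamma hN le_rfl) (stb_gamma B.lev (by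
    rintro _ ⟨g, -, rfl⟩
    exact gal_Sb X hN g)), LO_mono i⟩

/-- **restriction to a covering** -/
theorem Zf.res (Z : Zf X hD Γ D (∑ i, pS X (r i) • ξ) m ζ u v z) (B : Bd X hD Γ' D ξ m ζ)
    (le : Γ' ≤ Γ) (R : Dp.Reps Γ Γ' r) : Zf X hD Γ' D ξ m ζ u v z := by
  obtain ⟨α, β, y, e, e', c, f⟩ := Z.zc
  obtain ⟨M, A, i⟩ := ex_adm Z.bd le B.lev
  rw [map_sum, ← Finset.sum_congr rfl fun i _ => (up_spec (pS X (r i))).sm ξ] at c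
  exact ⟨B, Z.u1.mono le le_rfl, Z.u2.mono le le_rfl, α, β, y, e, e', Zc.res B.bs
    (HO_lev le Z.bd.sb) A i (tn_fi X le Z.bd.lev B.lev R fun _ => up_spec _) c,
    fun g n θ l => f g n θ (l.mono le)⟩

/-- **norms** -/
theorem Zf.nrm (Z : Zf X hD Γ' D ξ m ζ u v z) (B : Bd X hD Γ D ξ m ζ) (U : Ud X Γ D u)
    (le : Γ' ≤ Γ) (R : Dp.Reps Γ Γ' r) : Zf X hD Γ D ξ m ζ u (∏ i, X.pg (r i) v) z := by
  obtain ⟨α, β, y, e, e', c, f⟩ := Z.zc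
  obtain ⟨M, A, i⟩ := ex_adm B le Z.bd.lev
  have : Nonempty I := (R.cov 1 (one_mem _)).nonempty
  have T := tn_fi X le B.lev Z.bd.lev R fun i => up_spec (pS X (r i))
  have hN : ∀ n ∈ Fi (LO Γ), n ∈ HG X Γ' D → n ∈ Fi (LO Γ') := fun n l l' =>
    HO_ker l' (fun s o w x _ => by rw [gH_ker X o w]; rfl) (Fi.res l)
  obtain ⟨p, t⟩ := (show Tn (HG X Γ D) (HG X Γ' D) _ from ⟨HO_lev le B.sb, fun i => fix_HO (T.mem i),
    fun θ l => by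
      obtain ⟨η, o, w⟩ := HO_dec l Z.bd.sb
      obtain ⟨i, q⟩ := T.ex _ (B.bs.lv.nz (inv_mem (HO_lev le B.sb o)) w)
      exact ⟨i, by simpa [mul_assoc] using mul_mem (fix_HO q) o⟩,
    fun i j l => T.un i j (hN _ (mul_mem (inv_mem (T.mem i)) (T.mem j)) l)⟩).tr
  obtain ⟨y', c', f'⟩ := Zc.nrmG B.bs t T.mem hN (LO_mono le) A i (U.fo e) c
  refine zf_of B U.ut (ut_prod fun i _ => (ut_pb X _).2 Z.u2.ut) e ?_ c' fun g n =>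
    ⟨_, lf_up X Γ g, (f' _ (up_HG X Z.bd.sb n)).trans (f g n _ (lf_up X Γ' g))⟩
  rw [Finset.smul_sum, vv_sum, map_prod]
  exact Finset.prod_congr rfl fun i _ => by rw [← Kc.sm_n, vv_smul, e', up_spec]; rfl

end Vale.Agent.P014T.Uy
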