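import Vale.Agent.P014T.Uy.Om
import Vale.Agent.P014T.Pu.Hk

/-! # P014T: points which vanish at the cusps, groups of lifts (helper27) -/

set_option autoImplicit false
set_option linter.all false

open CongruenceSubgroup
open scoped MatrixGroups Classical

noncomputable section

namespace Vale.Agent.P014T.Uy

open Vale.Agent.P022 H231.L3 P027M.M Dc P019P P025H492 Nr Ts
open P027M.K (SL res0 res0_spec res0_eq)
open Dr (Hm Ha)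

/-- extension of valuations -/
theorem vext {K Ω : Type*} [Field K] [Field Ω] (μ : K →+* Ω) (O : ValuationSubring K) :
    ∃ B : ValuationSubring Ω, ∀ c, μ c ∈ B ↔ c ∈ O := by
  obtain ⟨B, hB, hl⟩ := IsLocalRing.exists_factor_valuationRing (μ.comp O.subtype)
  refine ⟨B, fun c => ⟨fun h => by_contra fun hc => ?_, fun h => hB ⟨c, h⟩⟩⟩
  have h0 : c ≠ 0 := by rintro rfl; exact hc (zero_mem O)
  obtain ⟨y, hy⟩ := (hl.map_nonunit ⟨c⁻¹, (O.mem_or_inv_mem c).resolve_left hc⟩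
    (.of_mul_eq_one ⟨μ c, h⟩ (Subtype.ext (show μ c⁻¹ * μ c = 1 by
      rw [← map_mul, inv_mul_cancel₀ h0, map_one])))).exists_right_inv
  exact hc ((inv_mul_eq_one₀ h0).1 (congrArg Subtype.val hy) ▸ y.2)

variable {a b : ℚ} {Γ Γ' : Subgroup SL(2, ℤ)} {ξ η : Pm FF a b} (X : Mdl)

/-- the coordinates have level `Γ` -/
def Df (Γ : Subgroup SL(2, ℤ)) (ξ : Pm FF a b) : Prop := ∀ x y n, ξ = .some x y n → x ∈ L Γ ∧ y ∈ L Γ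

theorem df_iff : Df Γ ξ ↔ ∀ γ ∈ Γ, pS X γ • ξ = ξ := by
  rcases ξ with _ | ⟨x, y, n⟩
  · exact ⟨fun _ _ _ => rfl, fun _ _ _ _ e => nomatch e⟩
  · refine ⟨fun h γ m => Pu.mp_id _ _ _ n (Dp.pg_self X (h x y n rfl).1 m)
      (Dp.pg_self X (h x y n rfl).2 m), fun h _ _ _ e => ?_⟩
    cases e
    exact ⟨(Hec.mem_L_iff X).2 fun γ m => (fx_xy (h γ m)).1,
      (Hec.mem_L_iff X).2 fun γ m => (fx_xy (h γ m)).2⟩

theorem Df.mono (h : Df Γ ξ) (l : Γ' ≤ Γ) : Df Γ' ξ := fun x y n e =>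
  ⟨L_mono l (h x y n e).1, L_mono l (h x y n e).2⟩

theorem ex_df (ξ : Pm FF a b) : ∃ N, 0 < N ∧ Df (Gamma N) ξ := by
  rcases ξ with _ | ⟨x, y, n⟩
  · exact ⟨1, one_pos, fun _ _ _ e => nomatch e⟩
  obtain ⟨N, hN, k⟩ := ex_gamma x
  obtain ⟨M, hM, l⟩ := ex_gamma y
  refine ⟨N * M, Nat.mul_pos hN hM, fun _ _ _ e => ?_⟩
  cases e
  exact ⟨L_mono gamma_le k, L_mono (mul_comm M N ▸ gamma_le) l⟩

theorem Df.ex (h : Df Γ ξ) : ∃ ξ₀ : Pm (L Γ) a b, mq (algebraMap (L Γ) FF) ξ₀ = ξ :=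
  ex_mq fun x y n e => ⟨⟨⟨x, (h x y n e).1⟩, rfl⟩, ⟨y, (h x y n e).2⟩, rfl⟩

theorem mq_sm {M M' : Type} [Field M] [Field M'] (s : M →+* M') {x y : M} (n) :
    ∃ m, mq (a := a) (b := b) s (.some x y n) = .some (s x) (s y) m := ⟨_, Pu.mp_some _ _ _ n⟩

theorem mq_some {M M' : Type} [Field M] [Field M'] (s : M →+* M') {ξ : Pm M a b} {x y n}
    (e : mq s ξ = .some x y n) : ∃ u v m, ξ = .some u v m ∧ s u = x ∧ s v = y := by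
  rcases ξ with _ | ⟨u, v, m⟩
  · exact nomatch e
  · have := (Pu.mp_some _ _ _ m).symm.trans e
    injection this with e1 e2
    exact ⟨u, v, m, rfl, e1, e2⟩

/-- the point in the ambient field -/
def pO : Pm FF a b →+ Pm Om a b := mq (iO : FF →+* Om)

theorem Df.lo (h : Df Γ ξ) {M : IntermediateField Qb Om} (l : LO Γ ≤ M) :
    ∃ ξ₀ : Pm M a b, mq (algebraMap M Om) ξ₀ = pO ξ :=
  ex_mq fun x y n e => by
    obtain ⟨u, v, m, k, rfl, rfl⟩ := mq_some _ e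
    exact ⟨⟨⟨_, l (iO_mem.2 (h u v m k).1)⟩, rfl⟩, ⟨_, l (iO_mem.2 (h u v m k).2)⟩, rfl⟩

theorem Df.xy (h : Df Γ ξ) (x y n) (e : pO ξ = .some x y n) : x ∈ LO Γ ∧ y ∈ LO Γ := by
  obtain ⟨u, v, m, k, rfl, rfl⟩ := mq_some _ e
  exact ⟨iO_mem.2 (h u v m k).1, iO_mem.2 (h u v m k).2⟩

theorem Df.sm (h : Df Γ ξ) {θ : SL Qb Om} {s : Au} (e : ∀ f ∈ L Γ, θ.1 (iO f) = iO (s.1 f)) :
    θ • pO ξ = pO (s • ξ) := by
  obtain ⟨ξ, rfl⟩ := h.ex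
  let v := algebraMap (L Γ) FF
  let i : FF →+* Om := iO
  have e1 := mq_mq v i (i.comp v) (fun _ => rfl) ξ
  have e2 := mq_mq v s.1 ((s.1 : FF →+* FF).comp v) (fun _ => rfl) ξ
  exact ((congrArg (mq θ.1) e1).trans (mq_mq (i.comp v) (θ.1 : Om →+* Om) (i.comp ((s.1 : FF →+* FF).comp v))
    (fun x => (e x x.2).symm) ξ)).trans ((congrArg (mq i) e2).trans
      (mq_mq _ _ _ (fun _ => rfl) ξ)).symm

theorem Up.sm {θ : SL Qb Om} {s : Au} (h : Up θ s) (ξ : Pm FF a b) : θ • pO ξ = pO (s • ξ) :=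
  let ⟨_, _, k⟩ := ex_df ξ
  k.sm fun f _ => h f

variable (hD : 4 * a ^ 3 + 27 * b ^ 2 ≠ 0)

/-- **points with poles at all cusps** -/
def Cu : AddSubgroup (Pm FF a b) where
  carrier := {ξ | ∀ x y n, ξ = .some x y n → ∀ P : Plk Qb FF, x ∈ P.1 → jF ∈ P.1}
  zero_mem' _ _ _ e := nomatch e
  neg_mem' {ξ} h x y n e := by
    rcases ξ with _ | ⟨u, v, m⟩
    · exact nomatch e
    · cases e
      exact h _ _ m rfl
  add_mem' {ξ η} h k x y n e P m := by_contra fun c => by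
    obtain ⟨N, hN, p⟩ := ex_df ξ
    obtain ⟨M, hM, q⟩ := ex_df η
    obtain ⟨ξ, rfl⟩ := (p.mono (gamma_le (M := M))).ex
    obtain ⟨η, rfl⟩ := (q.mono (mul_comm M N ▸ gamma_le : Gamma (N * M) ≤ _)).ex
    have := cff _ (fi_gamma (Nat.mul_pos hN hM) le_rfl)
    have := alg_L (Gamma (N * M))
    have z : ∀ ζ : Pm (L (Gamma (N * M))) a b, (∀ x y n, mq (algebraMap _ FF) ζ = .some x y n →
        ∀ P : Plk Qb FF, x ∈ P.1 → jF ∈ P.1) → sq hD (down _ P) ζ = 0 := fun ζ l => by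
      rcases ζ with _ | ⟨u, v, r⟩
      · exact map_zero _
      · exact Pu.sp_pole (cd hD _) r fun s => c (l _ _ _ (mq_sm _ r).2 P s)
    obtain ⟨u, v, r, s, rfl, rfl⟩ := mq_some _ ((map_add _ ξ η).trans e)
    have t := map_add (sq hD (down _ P)) ξ η
    rw [z ξ h, z η k, add_zero, s] at t
    exact (Pu.sp_eq_zero (cd hD _) r).1 t m

theorem mem_Cu : ξ ∈ Cu hD ↔ ∀ x y n, ξ = .some x y n → ∀ P : Plk Qb FF, x ∈ P.1 → jF ∈ P.1 :=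
  Iff.rfl

variable {hD}

theorem cu_sm (h : ξ ∈ Cu hD) {s : Au} (k : Hl (s⁻¹.1 jF)) : s • ξ ∈ Cu hD := fun x y n e P m => by
  obtain ⟨u, v, r, l, rfl, rfl⟩ := mq_some _ e
  rw [← sl_inv s jF]
  exact k.hom (O := P.1) s.1 (fun c => res0_spec s c ▸ P.2.1 _)
    ((sm_mem s _ _).2 (h u v r l (s⁻¹ • P) ((sm_mem s _ _).1 (by rwa [smul_inv_smul]))) |>
      fun t => by rwa [smul_inv_smul] at t)

theorem cu_pA (h : ξ ∈ Cu hD) {A : M2} (hA : 0 < A.det) : pA X A hA • ξ ∈ Cu hD :=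
  cu_sm h ((hl_pb X hA).1 (show Hl ((pA X A hA).1 _) from (sl_inv (pA X A hA) jF).symm ▸ hl_j))

theorem cu_fix (h : ξ ∈ Cu hD) {s : Au} (k : s.1 jF = jF) : s • ξ ∈ Cu hD :=
  cu_sm h (by rw [← k, sl_inv']; exact hl_j)

theorem cu_gA (h : ξ ∈ Cu hD) (g : GQ) : gA X g • ξ ∈ Cu hD := cu_fix h (gal_jF X g)

theorem cu_xi {N w : ℕ} {G I : UpperHalfPlane → ℂ} {c : ℕ → ℤ} {A B : ℤ} {x y : FF}
    (h : P004N.RN N G c) (p : Pu.ParY N c A B w I (cv x) (cv y)) :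
    p.toPw.xi h ∈ Cu p.toPw.hD := fun _ _ _ e P m => by
  cases e
  exact (p.itgF h cv_jF).mem _ (fun r => map_ratCast (algebraMap Qb FF) r ▸ P.2.1 _) m

/-- **the cusps go to the origin** -/
theorem cu_sq (h : ξ ∈ Cu hD) {M : Type} [Field M] [Algebra Qb M] [CFF Qb M] (μ : M →ₐ[Qb] Om)
    {ξ₀ : Pm M a b} (e : mq (μ : M →+* Om) ξ₀ = pO ξ) {j : M} (hj : μ j = iO jF) (P : Plk Qb M)
    (n : j ∉ P.1) : sq hD P ξ₀ = 0 := by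
  rcases ξ₀ with _ | ⟨u, v, r⟩
  · exact map_zero _
  obtain ⟨x, y, s, k, e1, -⟩ := mq_some _ (e.symm.trans (mq_sm _ r).2)
  obtain ⟨B, hB⟩ := vext (μ : M →+* Om) P.1
  have t : jF ∉ B.comap (iO : FF →+* Om) := fun l => n ((hB j).1 (show μ j ∈ B from hj ▸ l))
  exact Pu.sp_pole (cd hD _) r fun m => t (h x y s k ⟨_, fun c => show iO _ ∈ B by
    rw [iO.commutes, ← μ.commutes]
    exact (hB _).2 (P.2.1 c), fun l => t ((SetLike.ext_iff.1 l _).2 trivial)⟩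
      (show (iO : FF →+* Om) x ∈ B from e1 ▸ (hB u).2 m))

/-! ### groups -/

/-- the Galois action as a homomorphism -/
def gH : GQ →* Au := MonoidHom.mk' (gA X) fun g h => Subtype.ext (map_mul X.gal g h)

theorem gH_apply (g : GQ) : gH X g = gA X g := rfl

/-- the stabiliser of a level field -/
def Sb (Γ : Subgroup SL(2, ℤ)) : Subgroup Au where
  carrier := {s | ∀ f, s.1 f ∈ L Γ ↔ f ∈ L Γ}
  one_mem' _ := Iff.rfl
  mul_mem' h k f := (h _).trans (k f)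
  inv_mem' {s} h f := by rw [← h, sl_inv]

theorem le_Sb {H : Subgroup Au} (h : ∀ s ∈ H, ∀ f ∈ L Γ, s.1 f ∈ L Γ) : H ≤ Sb Γ := fun s m f =>
  ⟨fun k => sl_inv' s f ▸ h _ (inv_mem m) _ k, h s m f⟩

theorem ha_Sb (Γ : Subgroup SL(2, ℤ)) : Ha.map (gH X) ≤ Sb Γ := le_Sb (by
  rintro _ ⟨g, m, rfl⟩ f k
  exact gal_L_ha X m k)

theorem hm_Sb {N : ℕ} (hN : 0 < N) (l : Gamma N ≤ Γ) : (Hm N).map (gH X) ≤ Sb Γ := le_Sb (by
  rintro _ ⟨g, m, rfl⟩ f k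
  exact gal_L_hm X hN m l k)

theorem gal_Sb {N : ℕ} (hN : 0 < N) (g : GQ) : gA X g ∈ Sb (Gamma N) :=
  le_Sb (H := (gH X).range) (by
    rintro _ ⟨g, rfl⟩ f k
    exact gal_gamma X hN g k) ⟨g, rfl⟩

/-- **the lifts of the restrictions to a level field** -/
def HO (Γ : Subgroup SL(2, ℤ)) (H : Subgroup Au) : Subgroup (SL Qb Om) where
  carrier := {θ | ∃ s ∈ H, s ∈ Sb Γ ∧ ∀ f ∈ L Γ, θ.1 (iO f) = iO (s.1 f)}
  one_mem' := ⟨1, one_mem _, one_mem _, fun _ _ => rfl⟩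
  mul_mem' := fun ⟨s, m, p, e⟩ ⟨t, n, q, d⟩ => ⟨s * t, mul_mem m n, mul_mem p q, fun f k => by
    rw [sl_mul, d f k, e _ ((q f).2 k), sl_mul]⟩
  inv_mem' := fun {θ} ⟨s, m, p, e⟩ => ⟨s⁻¹, inv_mem m, inv_mem p, fun f k => θ.1.injective (by
    rw [sl_inv, e _ ((inv_mem p f).2 k), sl_inv])⟩

variable {H H' : Subgroup Au} {θ : SL Qb Om} {s : Au}

theorem mem_HO (h : H ≤ Sb Γ) : θ ∈ HO Γ H ↔ ∃ s ∈ H, ∀ f ∈ L Γ, θ.1 (iO f) = iO (s.1 f) :=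
  exists_congr fun s => and_congr_right fun m => and_iff_right (h m)

theorem res_of (e : ∀ f ∈ L Γ, θ.1 (iO f) = iO (s.1 f)) : res0 θ = res0 s := res0_eq fun c => by
  rw [← iO.commutes, e _ (IntermediateField.algebraMap_mem _ c), res0_spec, iO.commutes]

theorem Up.ho (u : Up θ s) (m : s ∈ H) (h : H ≤ Sb Γ) : θ ∈ HO Γ H := ⟨s, m, h m, fun f _ => u f⟩

theorem fix_HO (h : ∀ z ∈ LO Γ, θ.1 z = z) : θ ∈ HO Γ H :=
  ⟨1, one_mem _, one_mem _, fun f m => h _ (iO_mem.2 m)⟩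

theorem HO_bot : θ ∈ HO Γ ⊥ ↔ ∀ z ∈ LO Γ, θ.1 z = z :=
  ⟨fun ⟨s, m, _, e⟩ => LO_all.2 fun f k => by rw [e f k, Subgroup.mem_bot.1 m]; rfl, fix_HO⟩

theorem HO_mono (h : H ≤ H') : HO Γ H ≤ HO Γ H' := fun _ ⟨s, m, e⟩ => ⟨s, h m, e⟩

theorem HO_lev (l : Γ' ≤ Γ) (h : H ≤ Sb Γ) : HO Γ' H ≤ HO Γ H := fun _ ⟨s, m, _, e⟩ =>
  ⟨s, m, h m, fun f k => e f (L_mono l k)⟩

theorem HO_st (h : θ ∈ HO Γ H) {z : Om} (m : z ∈ LO Γ) : θ.1 z ∈ LO Γ := by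
  obtain ⟨s, -, p, e⟩ := h
  obtain ⟨f, k, rfl⟩ := m
  exact e f k ▸ iO_mem.2 ((p f).2 k)

theorem HO_iff (h : θ ∈ HO Γ H) (z : Om) : θ.1 z ∈ LO Γ ↔ z ∈ LO Γ :=
  ⟨fun m => sl_inv' θ z ▸ HO_st (inv_mem h) m, HO_st h⟩

theorem HO_fix (h : θ ∈ HO Γ H) {f : FF} (m : f ∈ L Γ) (k : ∀ s ∈ H, s.1 f = f) :
    θ.1 (iO f) = iO f := let ⟨s, n, _, e⟩ := h; by rw [e f m, k s n]

theorem HO_pt (h : θ ∈ HO Γ H) (m : Df Γ ξ) (k : ∀ s ∈ H, s • ξ = ξ) : θ • pO ξ = pO ξ :=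
  let ⟨s, n, _, e⟩ := h; by rw [m.sm e, k s n]

theorem HO_res (h : θ ∈ HO Γ H) : ∃ s ∈ H, res0 θ = res0 s := let ⟨s, n, _, e⟩ := h; ⟨s, n, res_of e⟩

/-- two elements with the same restriction -/
theorem HO_ker (h : θ ∈ HO Γ H) (k : ∀ s ∈ H, res0 s = 1 → ∀ f ∈ L Γ, s.1 f = f) (r : res0 θ = 1) :
    ∀ z ∈ LO Γ, θ.1 z = z :=
  let ⟨s, n, _, e⟩ := h
  LO_all.2 fun f m => by rw [e f m, k s n ((res_of e).symm.trans r) f m]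

theorem gH_ker {D : Subgroup GQ} (h : s ∈ D.map (gH X)) (r : res0 s = 1) : s = 1 := by
  obtain ⟨g, -, rfl⟩ := h
  rw [show g = 1 from AlgEquiv.ext fun c => RingEquiv.congr_fun ((res_gA X g).symm.trans r) c, map_one]

theorem mem_HG {D : Subgroup GQ} (h : D.map (gH X) ≤ Sb Γ) :
    θ ∈ HO Γ (D.map (gH X)) ↔ ∃ g ∈ D, ∀ f ∈ L Γ, θ.1 (iO f) = iO (X.gal g f) :=
  (mem_HO h).trans ⟨by rintro ⟨_, ⟨g, m, rfl⟩, e⟩; exact ⟨g, m, e⟩, fun ⟨g, m, e⟩ => ⟨_, ⟨g, m, rfl⟩, e⟩⟩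

end Vale.Agent.P014T.Uy
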