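import Vale.Agent.P014T.Uy.Ho
import Vale.Agent.P014T.Ts.Ad

/-! # P014T: modular levels in the words of the frame (helper27) -/

set_option autoImplicit false
set_option linter.all false

open CongruenceSubgroup
open scoped MatrixGroups Classical IntermediateField

noncomputable section

namespace Vale.Agent.P014T.Uy

open Vale.Agent.P022 H231.L3 P027M.M Dc P019P P025H492 Nr
open Ts hiding Lev io
open P027M.K (SL res0 res0_spec res0_eq)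
open Dr (Hm Ha)

/-- `j` in the ambient field -/
def jO : Om := iO jF

variable {Γ Γ' : Subgroup SL(2, ℤ)} {H H' : Subgroup Au} {x : FF} {θ : SL Qb Om} {s : Au}
  {F : IntermediateField Qb Om} (X : Mdl) {A : M2} (hA : 0 < A.det)

theorem jO_mem (Γ : Subgroup SL(2, ℤ)) : jO ∈ LO Γ := j_LO Γ

theorem dm_hom (h : Hl x) (φ : FF →ₐ[Qb] Om) : Dm Qb (φ jF) (φ x) := fun M u v e e' P m => by
  obtain ⟨B, hB⟩ := vext (algebraMap M Om) P.1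
  exact (hB v).1 (show (v : Om) ∈ B from e' ▸ h.hom (O := B) φ (fun c => by
    rw [RingHom.coe_coe, φ.commutes]
    exact (hB _).2 (P.2.1 c)) (show φ jF ∈ B from e ▸ (hB u).2 m))

theorem Hl.dm (h : Hl x) : Dm Qb jO (iO x) := dm_hom h iO

theorem dm_pb : Dm Qb jO (iO (X.pb A hA jF)) := ((hl_pb X hA).2 hl_j).dm

theorem dm_pb' : Dm Qb (iO (X.pb A hA jF)) jO := by
  simpa [jO] using dm_hom (x := (X.pb A hA).symm jF) ((hl_pb X hA).1 (by simpa using hl_j))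
    (iO.comp (X.pb A hA))

theorem yj_pb (h : jO ∈ F) (k : iO (X.pb A hA jF) ∈ F) : Yj F (iO (X.pb A hA jF)) = Yj F jO :=
  ((dm_pb' X hA).sub k).antisymm ((dm_pb X hA).sub h)

theorem Ut.unt (h : Ut x) (l : jO ∈ F) (m : ℕ) : Unt jO F m (iO x) :=
  Unt.of_dm l h.hl.dm (map_inv₀ iO x ▸ h.inv.hl.dm)

theorem LO_top : LO ⊤ = Qb⟮jO⟯ := by
  rw [LO, L_top, IntermediateField.adjoin_map, Set.image_singleton, jO]

theorem tr_jO : Transcendental Qb jO :=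
  (transcendental_algebraMap_iff (algebraMap FF Om).injective).2 (tr_of (e := AlgHom.id Qb FF) rfl)

theorem alg_jO (z : Om) : IsAlgebraic Qb⟮jO⟯ z := LO_top ▸ (algO ⊤).1 z

theorem stb_HO : Stb (LO Γ) (HO Γ H) := fun _ m _ k => HO_st m k

/-- **levels** -/
theorem lev_HO (f : Γ.FiniteIndex) (h : ∀ s ∈ H, Hl (s.1 jF)) : Ts.Lev jO (LO Γ) (HO Γ H) :=
  have := cffO f
  ⟨tr_jO, alg_jO, jO_mem Γ, fg_of_cff, fun _ => fix_HO, stb_HO, fun θ ⟨s, m, _, e⟩ => by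
    rw [jO, e _ (jF_mem Γ)]
    exact (h s m).dm⟩

theorem lev_HG (f : Γ.FiniteIndex) (D : Subgroup GQ) :
    Ts.Lev jO (LO Γ) (HO Γ (D.map (gH X))) := lev_HO f (by
  rintro _ ⟨g, -, rfl⟩
  exact (gal_jF X g).symm ▸ hl_j)

theorem lev_fi (f : Γ.FiniteIndex) : Ts.Lev jO (LO Γ) (Fi (LO Γ)) :=
  (lev_HO (H := ⊥) f fun s m => by rw [Subgroup.mem_bot.1 m]; exact hl_j).mono
    (fun _ => fix_HO) le_rfl

/-- a uniformiser from the small level -/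
theorem ord_lo (h : Γ ≤ G0) (l : Γ' ≤ Γ) [CFF Qb (LO Γ')] (P : Plk Qb (LO Γ'))
    (p : P ∈ Yj (LO Γ') jO) : ∃ z : LO Γ', ↑z ∈ LO Γ ∧ ord P z = 1 := by
  obtain ⟨X⟩ := mdl
  have m : iO X.t ∈ LO Γ := iO_mem.2 (X.tL h).2
  obtain ⟨a, e⟩ := ord_one X (SL_pos 1) (e := eo iO _ LO_rng) (j := ⟨_, jO_mem Γ'⟩) (eo_eq _ rfl)
    ((mem_yj _).1 p) (t := ⟨_, LO_mono l m⟩) ((eo_eq LO_rng rfl).trans (Hec.pg_one X _).symm)
  exact ⟨_, sub_mem m (IntermediateField.algebraMap_mem _ a), e⟩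

/-- **the covering of levels is admissible** -/
theorem adm_LO (h : Γ ≤ G0) (l : Γ' ≤ Γ) (f : Γ'.FiniteIndex) {K : Subgroup (SL Qb Om)}
    (st : Stb (LO Γ') K) : Adm jO (LO Γ) K (LO Γ') :=
  have := cffO f
  Adm.of_ord (lev_fi (Subgroup.finiteIndex_of_le l)) (LO_mono l) st (ord_lo h l)

theorem tn_fi {I : Type} {r : I → SL(2, ℤ)} {t : I → SL Qb Om} (le : Γ' ≤ Γ) (l : Lev Γ)
    (l' : Lev Γ') (R : Dp.Reps Γ Γ' r) (u : ∀ i, Up (t i) (pS X (r i))) :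
    Tn (Fi (LO Γ)) (Fi (LO Γ')) t := tn_of X (fun _ => Iff.rfl) (fun _ => Iff.rfl) le l l' R u

/-- normal levels are stable -/
theorem stb_nor (n : ∀ γ ∈ Γ, ∀ δ ∈ Γ', γ * δ * γ⁻¹ ∈ Γ') (l : Lev Γ) (h : H ≤ Sb Γ') :
    Stb (LO Γ') (HO Γ H) := by
  rintro θ ⟨s, m, p, e⟩ _ ⟨f, k, rfl⟩
  obtain ⟨X⟩ := mdl
  obtain ⟨γ, g, d⟩ := fix_pt X (θ := θ * (up s)⁻¹) (fun y c => by
    rw [sl_mul, (up_spec s).inv, e _ ((inv_mem p y).2 c), sl_inv]) l (s.1 f)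
  rw [sl_mul, (up_spec s).inv, sl_inv'] at d
  exact mem_cm.2 (d ▸ iO_mem.2 (Dp.pb_mem X _ (Dp.cj_SL (n γ g)) ((h m f).2 k)))

theorem stb_gamma {N : ℕ} (l : Lev Γ) (h : H ≤ Sb (Gamma N)) : Stb (LO (Gamma N)) (HO Γ H) :=
  stb_nor (fun γ _ => gamma_conj N γ) l h

/-! ### conjugation -/

theorem pb_iff (c : Dp.Cj A Γ Γ') (c' : ∀ g ∈ Γ, ∃ γ ∈ Γ', A * (γ : M2) = (g : M2) * A) (f : FF) :
    X.pb A hA f ∈ L Γ' ↔ f ∈ L Γ := ⟨fun m => (Hec.mem_L_iff X).2 fun g k => by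
  obtain ⟨γ, l, e⟩ := c' g k
  exact (X.pb A hA).injective ((Dp.pg_pb X hA hA e f).symm.trans (Dp.pg_self X m l)),
  Dp.pb_mem X hA c⟩

theorem Up.iff (u : Up θ s) (h : ∀ f, s.1 f ∈ L Γ' ↔ f ∈ L Γ) (z : Om) :
    θ.1 z ∈ LO Γ' ↔ z ∈ LO Γ := ⟨fun ⟨f, m, e⟩ => ⟨s⁻¹.1 f, (h _).1 ((sl_inv s f).symm ▸ m),
  (u.inv f).symm.trans ((congrArg _ e).trans (sl_inv' θ z))⟩,
  fun ⟨f, m, e⟩ => ⟨s.1 f, (h f).2 m, (u f).symm.trans (congrArg _ e)⟩⟩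

theorem Up.conj (u : Up θ s) (h : ∀ f, s.1 f ∈ L Γ' ↔ f ∈ L Γ) (k : ∀ t ∈ H', s⁻¹ * t * s ∈ H)
    {η : SL Qb Om} (m : η ∈ HO Γ' H') : θ⁻¹ * η * θ ∈ HO Γ H := by
  obtain ⟨t, a, b, c⟩ := m
  refine ⟨_, k t a, fun f => ?_, fun f l => ?_⟩
  · rw [sl_mul, sl_mul, ← h, sl_inv, b, h]
  · rw [sl_mul, sl_mul, u, c _ ((h f).2 l), u.inv, sl_mul, sl_mul]

theorem gA_pA {g : GQ} (h : g ∈ Ha) : gA X g * pA X A hA = pA X A hA * gA X g :=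
  sl_ext (gal_pb_ha X hA h)

theorem ha_pA : ∀ t ∈ Ha.map (gH X), (pA X A hA)⁻¹ * t * pA X A hA ∈ Ha.map (gH X) := by
  rintro _ ⟨g, m, rfl⟩
  exact ⟨g, m, by rw [mul_assoc, gH_apply, gA_pA X hA m, inv_mul_cancel_left]⟩

theorem nor_gA {D : Subgroup GQ} (n : D.Normal) (g : GQ) :
    ∀ t ∈ D.map (gH X), (gA X g)⁻¹ * t * gA X g ∈ D.map (gH X) := by
  rintro _ ⟨h, m, rfl⟩
  exact ⟨_, n.conj_mem' h m g, by rw [map_mul, map_mul, map_inv]; rfl⟩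

/-- the group of a level is the product of the small group and the geometric group -/
theorem HO_dec (h : θ ∈ HO Γ H) (k : H ≤ Sb Γ') : ∃ η ∈ HO Γ' H, η⁻¹ * θ ∈ Fi (LO Γ) := by
  obtain ⟨s, m, p, e⟩ := h
  exact ⟨up s, (up_spec s).ho m k, LO_all.2 fun f l => by
    rw [sl_mul, e f l, (up_spec s).inv, sl_inv']⟩

/-- the lifts of a Galois element -/
theorem up_HG {D : Subgroup GQ} (h : D.map (gH X) ≤ Sb Γ) {g : GQ} (m : g ∈ D) :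
    up (gA X g) ∈ HO Γ (D.map (gH X)) := (up_spec _).ho ⟨g, m, rfl⟩ h

theorem res_up (g : GQ) : res0 (up (gA X g)) = g.toRingEquiv := (up_spec _).res.trans (res_gA X g)

end Vale.Agent.P014T.Uy
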