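import Vale.Agent.P014T.Uy.Cm
import Vale.Agent.P014T.Nr.St
import Vale.Agent.P014T.Ts.Fr

/-! # P014T: the level fields in an algebraic closure (helper27) -/

set_option autoImplicit false
set_option linter.all false

open CongruenceSubgroup Matrix
open scoped MatrixGroups

noncomputable section

namespace Vale.Agent.P014T.Uy

open Vale.Agent.P022 H231.L3 P027M.M Dc P019P P025H492 Nr Ts
open P027M.K (SL res0 res0_spec res0_eq)

/-- the ambient field -/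
abbrev Om : Type := AlgebraicClosure FF

/-- the embedding -/
def iO : FF →ₐ[Qb] Om := IsScalarTower.toAlgHom Qb FF Om

theorem iO_inj {x y : FF} (h : iO x = iO y) : x = y := (iO : FF →+* Om).injective h

/-- the level fields -/
def LO (Γ : Subgroup SL(2, ℤ)) : IntermediateField Qb Om := (L Γ).map iO

variable {Γ Γ' : Subgroup SL(2, ℤ)} {x : FF} {N : ℕ}

theorem mem_LO {z : Om} : z ∈ LO Γ ↔ ∃ x ∈ L Γ, iO x = z := Iff.rfl

theorem iO_mem : iO x ∈ LO Γ ↔ x ∈ L Γ := ⟨fun ⟨_, m, e⟩ => iO_inj e ▸ m, fun m => ⟨x, m, rfl⟩⟩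

theorem LO_mono (h : Γ' ≤ Γ) : LO Γ ≤ LO Γ' := IntermediateField.map_mono _ (L_mono h)

theorem LO_all {p : Om → Prop} : (∀ z ∈ LO Γ, p z) ↔ ∀ x ∈ L Γ, p (iO x) :=
  ⟨fun h x m => h _ ⟨x, m, rfl⟩, fun h _ ⟨x, m, e⟩ => e ▸ h x m⟩

theorem LO_rng (z : LO Γ) : ∃ x, iO x = (LO Γ).val z := z.2.imp fun _ h => h.2

theorem j_LO (Γ : Subgroup SL(2, ℤ)) : iO jF ∈ LO Γ := iO_mem.2 (jF_mem Γ)

theorem cffO (h : Γ.FiniteIndex) : CFF Qb (LO Γ) :=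
  have := cff Γ h
  P004Z.Ar.Fn.cff_of ((L Γ).equivMap iO).symm.toAlgHom (x := ⟨_, j_LO Γ⟩)
    (tr_of (e := eo iO _ LO_rng) (eo_eq _ rfl))

theorem alg_L (Γ : Subgroup SL(2, ℤ)) : Algebra.IsAlgebraic (L Γ) FF := ⟨fun x => by
  obtain ⟨X⟩ := mdl
  obtain ⟨N, hN, m⟩ := ex_gamma x
  have : NeZero N := ⟨hN.ne'⟩
  let _ := algL (le_top : Gamma N ≤ ⊤)
  let _ := algL (le_top : Γ ≤ ⊤)
  have := (artin X ⊤ (Gamma N) le_top inferInstance).1
  have : IsScalarTower (L ⊤) (L (Gamma N)) FF := .of_algebraMap_eq fun _ => rfl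
  have : IsScalarTower (L ⊤) (L Γ) FF := .of_algebraMap_eq fun _ => rfl
  exact ((IsAlgebraic.of_finite (L ⊤) (⟨x, m⟩ : L (Gamma N))).algebraMap (A := FF)).tower_top _⟩

theorem algO (Γ : Subgroup SL(2, ℤ)) : Algebra.IsAlgebraic (LO Γ) Om := by
  have := alg_L Γ
  have : Algebra.IsAlgebraic (L Γ) Om := .trans (L Γ) FF Om
  let _ : Algebra (L Γ) (LO Γ) := ((L Γ).equivMap iO).toAlgHom.toRingHom.toAlgebra
  have : IsScalarTower (L Γ) (LO Γ) Om := .of_algebraMap_eq fun _ => rfl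
  exact .tower_top (K := L Γ) _

theorem finO (h : Γ' ≤ Γ) (f : Γ'.FiniteIndex) :
    letI := (IntermediateField.inclusion (LO_mono h)).toRingHom.toAlgebra
    FiniteDimensional (LO Γ) (LO Γ') := by
  letI := (IntermediateField.inclusion (LO_mono h)).toRingHom.toAlgebra
  have := cffO f
  have : IsScalarTower Qb (LO Γ) (LO Γ') := .of_algebraMap_eq fun _ => rfl
  exact finite_of_transcendental (k := Qb) (x := ⟨_, j_LO Γ⟩)
    (tr_of (e := eo iO _ LO_rng) (eo_eq _ rfl))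

theorem Lev.fi (h : Lev Γ) : Γ.FiniteIndex := let ⟨_, n, l⟩ := h.lo; fi_gamma n l

theorem Lev.g0 (h : Lev Γ) : Γ ≤ G0 := h.hi.trans (Gamma1_in_Gamma0 4)

theorem Lev.neg (h : Lev Γ) {γ : SL(2, ℤ)} (m : γ ∈ Γ) : -γ ∉ Gamma1 4 := fun k => by
  have a := ((Gamma1_mem 4 _).1 (h.hi m)).1
  have b := ((Gamma1_mem 4 _).1 k).1
  rw [SpecialLinearGroup.coe_neg, neg_apply, Int.cast_neg, a] at b
  exact absurd b (by decide)

theorem Lev.mono (h : Lev Γ) (l : Γ' ≤ Γ) (hN : 0 < N) (k : Gamma N ≤ Γ') : Lev Γ' :=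
  ⟨⟨N, hN, k⟩, l.trans h.hi⟩

variable {X : Mdl}

theorem Un.ut {u : FF} (h : Un X Γ u) : Ut u := let ⟨_, _, e, n⟩ := h.hol; ut_inc e n

theorem Ut.hol (h : Ut x) : ∃ (f : UpperHalfPlane → ℂ) (hf : f ∈ H218.L3.Hol),
    cv x = H218.L3.inc f hf ∧ ∀ τ, f τ ≠ 0 :=
  let ⟨f, e, k⟩ := P022K.F0.Cf.ex_hol h.hl
  ⟨f.1, f.2, e, fun τ l => ((P022K.F0.Cf.ev_eq_zero ((map_ne_zero _).2 h.1) (h.hl τ)).1
    ((k τ).symm.trans l)).ne' (h.2 τ)⟩

section pl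

variable {M : IntermediateField Qb Om} [CFF Qb M] {P : Plk Qb M} {j : iO jF ∈ M}

/-- **units**, on any function field in `Om` -/
theorem Ut.lo (h : Ut x) (m : iO x ∈ M) (p : ⟨_, j⟩ ∈ P.1) : P019P.ord P ⟨_, m⟩ = 0 :=
  h.om (ι := iO) (μ := M.val) rfl rfl p

theorem Hl.lo (h : Hl x) (m : iO x ∈ M) (p : ⟨_, j⟩ ∈ P.1) : ⟨_, m⟩ ∈ P.1 :=
  h.om (ι := iO) (μ := M.val) rfl rfl p

theorem chg_lo (X : Mdl) {A : M2} (hA : 0 < A.det) (m : iO (X.pb A hA jF) ∈ M) :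
    ⟨_, m⟩ ∈ P.1 ↔ ⟨_, j⟩ ∈ P.1 := chg_om X hA (ι := iO) (μ := M.val) rfl rfl

/-- **unramified on the open curve** -/
theorem unr_lo {K : Type*} [Field K] [Algebra Qb K] [Algebra K M] [IsScalarTower Qb K M] [CFF Qb K]
    [Algebra.IsAlgebraic K M] (h : Γ ≤ G0) (k : ∀ x ∈ L Γ, ∃ t : K, (algebraMap K M t : Om) = iO x)
    (l : M ≤ LO Γ') (p : ⟨_, j⟩ ∈ P.1) : ram K P = 1 := by
  obtain ⟨X⟩ := mdl
  obtain ⟨t, e⟩ := k _ (X.tL h).2
  exact unr_om X (SL_pos 1) (μ := M.val) (fun z => (l z.2).imp fun _ h => h.2) rfl p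
    (e.trans (congrArg iO (Hec.pg_one X _).symm))

end pl

/-! ### lifts of automorphisms -/

/-- `θ` lifts `a` -/
def Up (θ : SL Qb Om) (a : Au) : Prop := ∀ f, θ.1 (iO f) = iO (a.1 f)

variable {θ θ' : SL Qb Om} {a a' : Au}

theorem Up.res (h : Up θ a) : res0 θ = res0 a := res0_eq fun c => by
  rw [← iO.commutes, h, res0_spec, iO.commutes]

theorem ex_up (a : Au) : ∃ θ, Up θ a :=
  have e := IsAlgClosure.equivOfEquiv_algebraMap Om Om a.1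
  ⟨⟨IsAlgClosure.equivOfEquiv Om Om a.1, res0 a, fun c => by
    rw [← iO.commutes, ← iO.commutes, ← res0_spec]; exact e _⟩, e⟩

theorem up_one : Up 1 1 := fun _ => rfl

theorem Up.mul (h : Up θ a) (k : Up θ' a') : Up (θ * θ') (a * a') := fun f => by
  rw [sl_mul, k, h, sl_mul]

theorem Up.inv (h : Up θ a) : Up θ⁻¹ a⁻¹ := fun f => θ.1.injective (by
  rw [sl_inv, h, sl_inv])

/-- a chosen lift -/
def up (a : Au) : SL Qb Om := (ex_up a).choose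

theorem up_spec (a : Au) : Up (up a) a := (ex_up a).choose_spec

variable (X)

theorem res_pA {A : M2} (hA : 0 < A.det) : res0 (pA X A hA) = 1 :=
  res0_eq fun c => (X.pb A hA).commutes c

theorem res_pS (γ : SL(2, ℤ)) : res0 (pS X γ) = 1 := res_pA X _

theorem res_gA (g : GQ) : res0 (gA X g) = g.toRingEquiv := res0_eq ((x_galx X).2.1 g)

/-- automorphisms over a level field are substitutions -/
theorem fix_lev (hN : 0 < N) (l : Gamma N ≤ Γ) (h : ∀ x ∈ L Γ, θ.1 (iO x) = iO x) :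
    ∃ γ ∈ Γ, ∀ x ∈ L (Gamma N), θ.1 (iO x) = iO (X.pg γ x) := by
  let _ := algL l
  obtain ⟨g, s, -⟩ := (artin X Γ _ l (fi_gamma hN le_rfl)).2 fun γ _ => gamma_conj N γ
  have : IsScalarTower (L Γ) (L (Gamma N)) Om := .of_algebraMap_eq fun _ => rfl
  let φ : Om ≃ₐ[L Γ] Om := .ofRingEquiv (f := θ.1) fun x => h x x.2
  obtain ⟨γ, m, e⟩ := s (φ.restrictNormal _)
  exact ⟨γ, m, fun x k => (φ.restrictNormal_commutes _ (⟨x, k⟩ : L (Gamma N))).symm.trans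
    (congrArg iO (e _))⟩

theorem fix_pt (h : ∀ x ∈ L Γ, θ.1 (iO x) = iO x) (l : Lev Γ) (x : FF) :
    ∃ γ ∈ Γ, θ.1 (iO x) = iO (X.pg γ x) := by
  obtain ⟨n, hn, k⟩ := l.lo
  obtain ⟨N, hN, m⟩ := ex_gamma x
  exact (fix_lev X (Nat.mul_pos hn hN) (gamma_le.trans k) h).imp fun γ e =>
    ⟨e.1, e.2 x (L_mono (mul_comm N n ▸ gamma_le) m)⟩

theorem faith (l : Lev Γ) {γ : SL(2, ℤ)} (m : γ ∈ Gamma1 4) (h : ∀ x ∈ L Γ, X.pg γ x = x) :
    γ ∈ Γ := by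
  obtain ⟨n, hn, k⟩ := l.lo
  exact (fix_mem X (N := n * 4) ⟨by omega, dvd_mul_left _ _⟩ (gamma_le.trans k) h).resolve_right
    fun e => Lev.neg l e (by rwa [neg_neg])

/-- **transversals** -/
theorem tn_of {I : Type} {r : I → SL(2, ℤ)} {s : I → SL Qb Om} {H H' : Subgroup (SL Qb Om)}
    (hH : ∀ θ, θ ∈ H ↔ ∀ z ∈ LO Γ, θ.1 z = z) (hH' : ∀ θ, θ ∈ H' ↔ ∀ z ∈ LO Γ', θ.1 z = z)
    (le : Γ' ≤ Γ) (l : Lev Γ) (l' : Lev Γ') (R : Dp.Reps Γ Γ' r) (u : ∀ i, Up (s i) (pS X (r i))) :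
    Tn H H' s := by
  simp only [LO_all] at hH hH'
  have i : ∀ i x, (s i)⁻¹.1 (iO x) = iO (X.pg (r i)⁻¹ x) := fun i x => (s i).1.injective (by
    rw [sl_inv, u]
    exact congrArg iO (pg_inv' X _ x).symm)
  refine ⟨fun θ m => (hH θ).2 fun x k => (hH' θ).1 m x (L_mono le k), fun i => (hH _).2 fun x k =>
    (u i x).trans (congrArg iO (Dp.pg_self X k (R.mem i))), fun θ m => ?_, fun p q m => ?_⟩
  · obtain ⟨n, hn, k⟩ := l'.lo
    obtain ⟨γ, g, e⟩ := fix_lev X hn (k.trans le) ((hH θ).1 m)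
    exact (R.cov γ g).imp fun p c => (hH' _).2 fun x b => by
      rw [sl_mul, e x (L_mono k b), i, ← Dp.pg_mul, Dp.pg_self X b c]
  · refine (R.inj q p (faith X l' (l.hi (mul_mem (R.mem q) (inv_mem (R.mem p)))) fun x b =>
      iO_inj ?_)).symm
    rw [Dp.pg_mul, ← i]
    exact (congrArg _ (u q x).symm).trans ((hH' _).1 m x b)

end Vale.Agent.P014T.Uy
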